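import Vale.Agent.N207.Var

/-!
# P207: limits of families of orbit arcs
-/

open MeasureTheory Set Filter Topology
open scoped ENNReal BoundedContinuousFunction

noncomputable section

namespace Vale.Agent.N207

open Vale.Agent.P109.KS

theorem ev_exp_le {u : ℝ → ℕ} {Λ s : ℝ} (h : Tendsto (fun R => Real.log (u R) / R) atTop (𝓝 Λ))
    (hΛ : 0 < Λ) (hs : s < Λ) : ∀ᶠ R in atTop, Real.exp (s * R) ≤ u R := by
  filter_upwards [h.eventually (lt_mem_nhds (max_lt hs hΛ)), eventually_gt_atTop 0] with R h1 h2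
  rw [lt_div_iff₀ h2] at h1
  have h3 : s * R ≤ max s 0 * R := mul_le_mul_of_nonneg_right (le_max_left _ _) h2.le
  have h4 : 0 ≤ max s 0 * R := mul_nonneg (le_max_right _ _) h2.le
  have h5 : (0 : ℝ) < u R := by
    refine lt_of_le_of_ne (Nat.cast_nonneg _) fun h6 => ?_
    rw [← h6, Real.log_zero] at h1
    linarith
  rw [← Real.le_log_iff_exp_le h5]
  linarith

theorem ev_le_exp {u : ℝ → ℕ} {Λ s : ℝ} (h : Tendsto (fun R => Real.log (u R) / R) atTop (𝓝 Λ))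
    (hs : Λ < s) : ∀ᶠ R in atTop, u R ≤ Real.exp (s * R) := by
  filter_upwards [h.eventually (gt_mem_nhds hs), eventually_gt_atTop 0] with R h1 h2
  rw [div_lt_iff₀ h2] at h1
  exact (Real.le_exp_log _).trans (Real.exp_le_exp.2 h1.le)

theorem ev_ratio {u : ℝ → ℕ} {Λ κ : ℝ} (h : Tendsto (fun R => Real.log (u R) / R) atTop (𝓝 Λ))
    (hΛ : 0 < Λ) (h0 : 0 < κ) (h1 : κ < 1) : ∀ᶠ R in atTop, (u ((1 - κ) * R) : ℝ) ≤ κ * u R := by
  set d := κ * Λ / 4 with hd
  have hd0 : 0 < d := by positivity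
  have h2 := (tendsto_id.const_mul_atTop (show 0 < 1 - κ by linarith)).eventually
    (ev_le_exp h (s := Λ + d) (by linarith))
  have h3 := (tendsto_id.const_mul_atTop (show 0 < 2 * d by linarith)).eventually
    (eventually_ge_atTop (-Real.log κ))
  filter_upwards [h2, h3, ev_exp_le h hΛ (s := Λ - d) (by linarith), eventually_ge_atTop 0]
    with R h4 h5 h6 h7
  refine h4.trans (le_trans ?_ (mul_le_mul_of_nonneg_left h6 h0.le))
  rw [← Real.exp_log h0, ← Real.exp_add, Real.exp_log h0]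
  refine Real.exp_le_exp.2 ?_
  simp only [id] at h5 ⊢
  have h8 : 0 ≤ κ * d * R := by positivity
  have h9 : κ * Λ * R = 4 * (d * R) := by rw [hd]; ring
  nlinarith

variable {X : Type} [MetricSpace X] [CompactSpace X] [MeasurableSpace X] [BorelSpace X]
  {φ : ℝ → X → X}

/-- The mean of `a` over a family of arcs. -/
def mean (φ : ℝ → X → X) (A : Set (ℝ × X)) (a : X → ℝ) : ℝ :=
  (∑ᶠ q ∈ A, ∫ t in (0 : ℝ)..q.1, a (φ t q.2)) / ∑ᶠ q ∈ A, q.1

/-- A family of arcs with growth rate `Λ`. -/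
structure Fam (φ : ℝ → X → X) (A : ℝ → Set (ℝ × X)) (Λ : ℝ) : Prop where
  fin : ∀ R, (A R).Finite
  len : ∀ R, ∀ q ∈ A R, 0 < q.1 ∧ q.1 ≤ R
  cut : ∀ R R', ∀ q ∈ A R, q.1 ≤ R' → q ∈ A R'
  pos : 0 < Λ
  rate : Tendsto (fun R => Real.log (A R).ncard / R) atTop (𝓝 Λ)
  sep : ∃ ε > 0, ∃ η > 0, ∀ (R : ℝ) (N : ℕ), R ≤ N → ∀ q ∈ A R, ∀ q' ∈ A R, |q'.1 - q.1| ≤ η →
    (∀ i < N, dist ((φ 1)^[i] q.2) ((φ 1)^[i] q'.2) < ε) → q = q'

namespace Fam

variable {A : ℝ → Set (ℝ × X)} {Λ : ℝ} (H : Fam φ A Λ)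

/-- The family as a finite set. -/
def I (R : ℝ) : Finset (ℝ × X) := (H.fin R).toFinset

omit [CompactSpace X] [MeasurableSpace X] [BorelSpace X] in
theorem mem_I {R : ℝ} {q : ℝ × X} : q ∈ H.I R ↔ q ∈ A R := (H.fin R).mem_toFinset

omit [CompactSpace X] [MeasurableSpace X] [BorelSpace X] in
theorem card_I (R : ℝ) : (H.I R).card = (A R).ncard := (ncard_eq_toFinset_card _ (H.fin R)).symm

omit [CompactSpace X] [MeasurableSpace X] [BorelSpace X] in
theorem ev_ne : ∀ᶠ R in atTop, (H.I R).Nonempty := by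
  filter_upwards [ev_exp_le H.rate H.pos H.pos] with R hR
  rw [← Finset.card_pos, H.card_I]
  exact_mod_cast (Real.exp_pos _).trans_le hR

omit [CompactSpace X] [MeasurableSpace X] [BorelSpace X] in
theorem ev_len {e : ℝ} (he : 0 < e) :
    ∀ᶠ R in atTop, (1 - e) * ((H.I R).card * (⌈R⌉₊ : ℝ)) ≤ ∑ q ∈ H.I R, q.1 := by
  classical
  set κ := min (e / 3) (1 / 2) with hκ
  have h0 : 0 < κ := lt_min (by positivity) (by norm_num)
  have h1 : κ ≤ 1 / 2 := min_le_right _ _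
  have h2 : κ ≤ e / 3 := min_le_left _ _
  filter_upwards [ev_ratio H.rate H.pos h0 (by linarith), eventually_ge_atTop (1 / κ),
    eventually_ge_atTop 0] with R h3 h4 h5
  set B := (H.I R).filter fun q => ¬ q.1 ≤ (1 - κ) * R with hB
  have h6 : ((H.I R).filter fun q => q.1 ≤ (1 - κ) * R).card ≤ (A ((1 - κ) * R)).ncard := by
    rw [← H.card_I]
    refine Finset.card_le_card fun q hq => ?_
    rw [Finset.mem_filter] at hq
    exact H.mem_I.2 (H.cut R _ q (H.mem_I.1 hq.1) hq.2)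
  have h7 := Finset.card_filter_add_card_filter_not (s := H.I R) fun q => q.1 ≤ (1 - κ) * R
  have h8 : (1 - κ) * (H.I R).card ≤ B.card := by
    have h9 : (((H.I R).filter fun q => q.1 ≤ (1 - κ) * R).card : ℝ) ≤ κ * (H.I R).card := by
      rw [H.card_I]
      exact le_trans (by exact_mod_cast h6) h3
    have h10 : (((H.I R).filter fun q => q.1 ≤ (1 - κ) * R).card : ℝ) + B.card = (H.I R).card := by
      exact_mod_cast h7
    linarith
  have h9 : B.card * ((1 - κ) * R) ≤ ∑ q ∈ H.I R, q.1 := by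
    rw [← nsmul_eq_mul]
    refine (Finset.card_nsmul_le_sum B _ _ fun q hq => (not_le.1 (Finset.mem_filter.1 hq).2).le).trans
      (Finset.sum_le_sum_of_subset_of_nonneg (Finset.filter_subset _ _) fun q hq _ => ?_)
    exact (H.len R q (H.mem_I.1 hq)).1.le
  have h10 : (1 - κ) * (⌈R⌉₊ : ℝ) ≤ R := by
    have h11 := (Nat.ceil_lt_add_one h5).le
    rw [div_le_iff₀ h0] at h4
    nlinarith
  have hc : (0 : ℝ) ≤ (H.I R).card := Nat.cast_nonneg _
  have hN : (0 : ℝ) ≤ ⌈R⌉₊ := Nat.cast_nonneg _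
  have h11 : 1 - e ≤ (1 - κ) * (1 - κ) * (1 - κ) := by nlinarith [mul_pos h0 h0]
  have h12 : 0 ≤ 1 - κ := by linarith
  calc (1 - e) * ((H.I R).card * (⌈R⌉₊ : ℝ))
      ≤ (1 - κ) * (1 - κ) * (1 - κ) * ((H.I R).card * (⌈R⌉₊ : ℝ)) :=
        mul_le_mul_of_nonneg_right h11 (by positivity)
    _ = ((1 - κ) * (H.I R).card) * ((1 - κ) * ((1 - κ) * (⌈R⌉₊ : ℝ))) := by ring
    _ ≤ B.card * ((1 - κ) * R) :=
        mul_le_mul h8 (mul_le_mul_of_nonneg_left h10 h12) (by positivity) (Nat.cast_nonneg _)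
    _ ≤ _ := h9

theorem mean_sub (h : IsFl φ) (g : X →ᵇ ℝ) : Tendsto (fun R => mean φ (A R) g -
    ∫ x, g x ∂avg (φ 1) ⌈R⌉₊ (emp φ (H.I R) Prod.snd)) atTop (𝓝 0) := by
  refine Metric.tendsto_nhds.2 fun e he => ?_
  set d := e / (2 * ‖g‖ + 1) with hd
  have hd0 : 0 < d := by positivity
  filter_upwards [H.ev_ne, H.ev_len hd0, eventually_gt_atTop 0] with R h1 h2 h3
  have hc : (0 : ℝ) < (H.I R).card := by exact_mod_cast h1.card_pos
  have hN : (0 : ℝ) < ⌈R⌉₊ := by exact_mod_cast Nat.ceil_pos.2 h3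
  have hl : ∀ q ∈ H.I R, 0 < q.1 ∧ q.1 ≤ ⌈R⌉₊ := fun q hq =>
    ⟨(H.len R q (H.mem_I.1 hq)).1, (H.len R q (H.mem_I.1 hq)).2.trans (Nat.le_ceil R)⟩
  have k : ∀ (x : X) (a b : ℝ), |∫ s in a..b, g (φ s x)| ≤ ‖g‖ * |b - a| := fun x a b =>
    intervalIntegral.norm_integral_le_of_norm_le_const (f := fun s => g (φ s x))
      fun s _ => g.norm_coe_le_norm _
  rw [Real.dist_eq, sub_zero, mean, finsum_mem_eq_finite_toFinset_sum _ (H.fin R),
    finsum_mem_eq_finite_toFinset_sum _ (H.fin R), integral_avg_emp h h1 _ _ g.continuous,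
    ← Finset.mul_sum, ← mul_assoc, ← mul_inv, inv_mul_eq_div]
  change |(∑ q ∈ H.I R, _) / (∑ q ∈ H.I R, _) - _| < e
  set S1 := ∑ q ∈ H.I R, ∫ t in (0 : ℝ)..q.1, g (φ t q.2) with hS1
  set S2 := ∑ q ∈ H.I R, q.1 with hS2
  set S3 := ∑ q ∈ H.I R, ∫ t in (0 : ℝ)..(⌈R⌉₊ : ℝ), g (φ t q.2) with hS3
  set P : ℝ := (H.I R).card * (⌈R⌉₊ : ℝ) with hP
  have hP0 : 0 < P := by positivity
  have h4 : 0 < S2 := Finset.sum_pos (fun q hq => (hl q hq).1) h1
  have h5 : |S1| ≤ ‖g‖ * S2 := by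
    rw [hS2, Finset.mul_sum]
    refine (Finset.abs_sum_le_sum_abs _ _).trans (Finset.sum_le_sum fun q hq => ?_)
    have := k q.2 0 q.1
    rwa [sub_zero, abs_of_pos (hl q hq).1] at this
  have h6 : |S3 - S1| ≤ ‖g‖ * (P - S2) := by
    rw [hP, ← nsmul_eq_mul, ← Finset.sum_const, hS2, ← Finset.sum_sub_distrib,
      ← Finset.sum_sub_distrib, Finset.mul_sum]
    refine (Finset.abs_sum_le_sum_abs _ _).trans (Finset.sum_le_sum fun q hq => ?_)
    have hc' : Continuous fun s => g (φ s q.2) := g.continuous.comp (h.left _)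
    rw [intervalIntegral.integral_interval_sub_left (hc'.intervalIntegrable _ _)
      (hc'.intervalIntegrable _ _)]
    have := k q.2 q.1 ⌈R⌉₊
    rwa [abs_of_nonneg (sub_nonneg.2 (hl q hq).2)] at this
  have h7 : S2 ≤ P := by
    rw [hP, ← nsmul_eq_mul]
    exact Finset.sum_le_card_nsmul _ _ _ fun q hq => (hl q hq).2
  have e1 : S1 / S2 - S3 / P = (S1 / S2 * (P - S2) - (S3 - S1)) / P := by
    field_simp
    ring
  have h8 : |S1 / S2| ≤ ‖g‖ := by
    rw [abs_div, abs_of_pos h4, div_le_iff₀ h4]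
    exact h5
  have h9 : |S1 / S2 * (P - S2)| ≤ ‖g‖ * (P - S2) := by
    rw [abs_mul, abs_of_nonneg (sub_nonneg.2 h7)]
    exact mul_le_mul_of_nonneg_right h8 (sub_nonneg.2 h7)
  have h10 : ‖g‖ * (P - S2) ≤ ‖g‖ * (d * P) :=
    mul_le_mul_of_nonneg_left (by linarith) (norm_nonneg _)
  have h11 : (2 * ‖g‖ + 1) * d = e := by
    rw [hd]
    field_simp
  rw [e1, abs_div, abs_of_pos hP0, div_lt_iff₀ hP0]
  have h12 := abs_sub (S1 / S2 * (P - S2)) (S3 - S1)
  have h13 : 0 < d * P := by positivity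
  nlinarith

omit [CompactSpace X] in
theorem exists_pm (h : IsFl φ) : ∃ μs : ℝ → ProbabilityMeasure X, ∀ᶠ R in atTop,
    (H.I R).Nonempty ∧ (μs R : Measure X) = avg (φ 1) ⌈R⌉₊ (emp φ (H.I R) Prod.snd) := by
  obtain ⟨R₀, q₀, -⟩ := H.ev_ne.exists
  have key : ∀ R : ℝ, ∃ ρ : ProbabilityMeasure X, (H.I R).Nonempty → 0 < R →
      (ρ : Measure X) = avg (φ 1) ⌈R⌉₊ (emp φ (H.I R) Prod.snd) := by
    intro R
    by_cases h1 : (H.I R).Nonempty ∧ 0 < R
    · have := emp_prob h h1.1 Prod.snd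
      exact ⟨⟨_, avg_prob (h.right 1).measurable (Nat.ceil_pos.2 h1.2)⟩, fun _ _ => rfl⟩
    · exact ⟨⟨Measure.dirac q₀.2, inferInstance⟩, fun h2 h3 => absurd ⟨h2, h3⟩ h1⟩
  choose μs hμs using key
  refine ⟨μs, ?_⟩
  filter_upwards [H.ev_ne, eventually_gt_atTop 0] with R h1 h2
  exact ⟨h1, hμs R h1 h2⟩

include H in
/-- The limits of the arcs are invariant and have entropy at least the growth rate. -/
theorem limit (h : IsFl φ) {ν : Measure X} [IsProbabilityMeasure ν] {R : ℕ → ℝ}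
    (hR : Tendsto R atTop atTop) (hν : ∀ a : X → ℝ, Continuous a →
      Tendsto (fun j => mean φ (A (R j)) a) atTop (𝓝 (∫ x, a x ∂ν))) :
    (∀ t, MeasurePreserving (φ t) ν ν) ∧ ENNReal.ofReal Λ ≤ ksEntropy ν (φ 1) := by
  classical
  obtain ⟨μs, hμ⟩ := H.exists_pm h
  have hμ' := hR.eventually hμ
  have hN : Tendsto (fun j => ⌈R j⌉₊) atTop atTop := tendsto_nat_ceil_atTop.comp hR
  have hlim : Tendsto (fun j => μs (R j)) atTop (𝓝 (⟨ν, inferInstance⟩ : ProbabilityMeasure X)) := by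
    refine ProbabilityMeasure.tendsto_iff_forall_integral_tendsto.2 fun g => ?_
    have h1 := (hν g g.continuous).sub ((H.mean_sub h g).comp hR)
    rw [sub_zero] at h1
    refine h1.congr' (hμ'.mono fun j hj => ?_)
    simp only [Function.comp_apply, hj.2, sub_sub_cancel]
  obtain ⟨ε, hε, η, hη, hsep⟩ := H.sep
  refine ⟨inv_of_limit h (p := fun _ => Prod.snd) hN hμ' hlim,
    le_ks_of_segments h (p := fun _ => Prod.snd) hN hμ' hlim hε
      (m := fun j => ⌈R j / η⌉₊ + 1) (fun j S hS => ?_) fun s hs => ?_⟩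
  · rw [← Finset.card_range (⌈R j / η⌉₊ + 1)]
    refine Finset.card_le_card_of_injOn (fun q => ⌈q.1 / η⌉₊) (fun q hq => ?_)
      fun q hq q' hq' hqq => ?_
    · have h1 := H.len _ q (H.mem_I.1 (Finset.mem_filter.1 hq).1)
      exact Finset.mem_range.2 (Nat.lt_succ_of_le (Nat.ceil_mono
        (div_le_div_of_nonneg_right h1.2 hη.le)))
    · have h1 := Finset.mem_filter.1 hq
      have h2 := Finset.mem_filter.1 hq'
      have h3 := H.len _ q (H.mem_I.1 h1.1)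
      have h4 := H.len _ q' (H.mem_I.1 h2.1)
      refine hsep _ _ (Nat.le_ceil _) q (H.mem_I.1 h1.1) q' (H.mem_I.1 h2.1) ?_
        (hS _ h1.2 _ h2.2)
      have h5 := Nat.le_ceil (q.1 / η)
      have h6 := Nat.le_ceil (q'.1 / η)
      have h7 := Nat.ceil_lt_add_one (div_pos h3.1 hη).le
      have h8 := Nat.ceil_lt_add_one (div_pos h4.1 hη).le
      have h9 : (⌈q.1 / η⌉₊ : ℝ) = ⌈q'.1 / η⌉₊ := by exact_mod_cast hqq
      have h10 : |q'.1 / η - q.1 / η| ≤ 1 := abs_le.2 ⟨by linarith, by linarith⟩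
      rwa [← sub_div, abs_div, abs_of_pos hη, div_le_one hη] at h10
  · obtain ⟨s', hs1, hs2⟩ := exists_between (max_lt hs H.pos)
    set s₀ := max s 0 with hs₀
    have hs0 : 0 ≤ s₀ := le_max_right _ _
    have hd : 0 < s' - s₀ := by linarith
    have h1 := (tendsto_id.const_mul_atTop hd).eventually
      ((Real.tendsto_exp_div_pow_atTop 1).eventually
        (eventually_ge_atTop ((1 / η + 2) * Real.exp s₀ / (s' - s₀))))
    refine hR.eventually (p := fun R => ((⌈R / η⌉₊ + 1 : ℕ) : ℝ) * Real.exp (s * (⌈R⌉₊ : ℕ)) ≤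
      (H.I R).card) ?_
    filter_upwards [h1, ev_exp_le H.rate H.pos hs2, eventually_ge_atTop 1] with r h2 h3 h4
    rw [H.card_I]
    refine le_trans ?_ h3
    simp only [id, pow_one] at h2
    rw [le_div_iff₀ (by positivity), ← mul_assoc, div_mul_cancel₀ _ hd.ne'] at h2
    have h5 : ((⌈r / η⌉₊ + 1 : ℕ) : ℝ) ≤ (1 / η + 2) * r := by
      push_cast
      have h6 := Nat.ceil_lt_add_one (show 0 ≤ r / η by positivity)
      have h7 : 1 / η * r = r / η := by ring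
      linarith
    have h6 : Real.exp (s * (⌈r⌉₊ : ℕ)) ≤ Real.exp s₀ * Real.exp (s₀ * r) := by
      rw [← Real.exp_add]
      refine Real.exp_le_exp.2 ?_
      have h7 := (Nat.ceil_lt_add_one (show 0 ≤ r by linarith)).le
      have h8 : s * (⌈r⌉₊ : ℕ) ≤ s₀ * (⌈r⌉₊ : ℕ) :=
        mul_le_mul_of_nonneg_right (le_max_left _ _) (Nat.cast_nonneg _)
      nlinarith
    calc _ ≤ ((1 / η + 2) * r) * (Real.exp s₀ * Real.exp (s₀ * r)) :=
          mul_le_mul h5 h6 (Real.exp_pos _).le (by positivity)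
      _ = ((1 / η + 2) * Real.exp s₀ * r) * Real.exp (s₀ * r) := by ring
      _ ≤ Real.exp ((s' - s₀) * r) * Real.exp (s₀ * r) :=
          mul_le_mul_of_nonneg_right h2 (Real.exp_pos _).le
      _ = Real.exp (s' * r) := by rw [← Real.exp_add]; ring_nf

include H in
theorem exists_limit (h : IsFl φ) : ∃ ν : Measure X, IsProbabilityMeasure ν ∧ ∃ R : ℕ → ℝ,
    Tendsto R atTop atTop ∧ ∀ a : X → ℝ, Continuous a →
      Tendsto (fun j => mean φ (A (R j)) a) atTop (𝓝 (∫ x, a x ∂ν)) := by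
  obtain ⟨μs, hμ⟩ := H.exists_pm h
  obtain ⟨ν, k, hk, hlim⟩ := CompactSpace.tendsto_subseq fun j : ℕ => μs j
  have hR : Tendsto (fun j => (k j : ℝ)) atTop atTop :=
    tendsto_natCast_atTop_atTop.comp hk.tendsto_atTop
  refine ⟨ν, inferInstance, fun j => k j, hR, fun a ha => ?_⟩
  set g : X →ᵇ ℝ := BoundedContinuousFunction.mkOfCompact ⟨a, ha⟩ with hg
  have h1 := ((H.mean_sub h g).comp hR).add
    (ProbabilityMeasure.tendsto_iff_forall_integral_tendsto.1 hlim g)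
  rw [zero_add] at h1
  refine h1.congr' ((hR.eventually hμ).mono fun j hj => ?_)
  simp only [Function.comp_apply, hj.2, sub_add_cancel]
  rfl

end Fam

end Vale.Agent.N207
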