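import Vale.Agent.P207.Fin

/-!
# P207: the growth rate of the homotopy classes of paths is the topological entropy
-/

open scoped Manifold ContDiff ENNReal Topology
open MeasureTheory Set Filter

noncomputable section

namespace Vale.Agent.N207

open Vale.Agent.P255 (RMetric Npc ExpSys)
open Vale.Agent.P207

variable {n : ℕ} {M : Type} [TopologicalSpace M] [CompactSpace M] [T2Space M]
  (S : ExpSys (EV n) M)

/-- The number of classes of length at most `R`. -/
def cnt (x y : M) (R : ℝ) : ℕ := {α : Cl x y | S.len α ≤ R}.ncard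

omit [CompactSpace M] in
theorem cnt_mono (x y : M) {R R' : ℝ} (h : R ≤ R') : cnt S x y R ≤ cnt S x y R' :=
  ncard_le_ncard (fun _ hα => le_trans hα h) (C1.finite_len_le S x y R')

omit [CompactSpace M] in
theorem cnt_pos (x : M) {R : ℝ} (h : 0 ≤ R) : 0 < cnt S x x R :=
  (ncard_pos (C1.finite_len_le S x x R)).2 ⟨Path.Homotopic.Quotient.refl x, by
    show S.len _ ≤ R
    rw [S.len_refl]
    exact h⟩

omit [T2Space M] in
theorem exists_diam [ConnectedSpace M] : ∃ D : ℝ, 0 ≤ D ∧ ∀ x y : M, ∃ δ : Cl x y, S.len δ ≤ D := by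
  obtain ⟨x₀⟩ : Nonempty M := inferInstance
  have h1 : ∀ y, Nonempty (Cl x₀ y) := by
    have h2 : IsClopen {y | Nonempty (Cl x₀ y)} := by
      constructor
      · rw [← isOpen_compl_iff, isOpen_iff_mem_nhds]
        intro y hy
        filter_upwards [C1.nb_mem_nhds S y one_pos] with z ⟨α, _⟩ ⟨β⟩
        exact hy ⟨β.trans α.symm⟩
      · rw [isOpen_iff_mem_nhds]
        intro y ⟨β⟩
        filter_upwards [C1.nb_mem_nhds S y one_pos] with z ⟨α, _⟩
        exact ⟨β.trans α⟩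
    exact eq_univ_iff_forall.1 (h2.eq_univ ⟨x₀, ⟨Path.Homotopic.Quotient.refl x₀⟩⟩)
  obtain ⟨F, hF⟩ := C1.exists_centers S one_pos
  set D := ∑ c ∈ F, S.len (h1 c).some + 1 with hD
  have h2 : ∀ y, ∃ δ : Cl x₀ y, S.len δ ≤ D := by
    intro y
    obtain ⟨c, hc, α, hα⟩ := hF y
    refine ⟨(h1 c).some.trans α, (S.len_trans _ _).trans (add_le_add ?_ hα.le)⟩
    exact Finset.single_le_sum (f := fun c => S.len (h1 c).some) (fun _ _ => S.len_nonneg _) hc
  refine ⟨D + D, ?_, fun x y => ?_⟩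
  · obtain ⟨δ, hδ⟩ := h2 x₀
    linarith [S.len_nonneg δ]
  · obtain ⟨α, hα⟩ := h2 x
    obtain ⟨β, hβ⟩ := h2 y
    refine ⟨α.symm.trans β, (S.len_trans _ _).trans ?_⟩
    rw [S.len_symm]
    linarith

section diam

variable {D : ℝ} (hD : ∀ x y : M, ∃ δ : Cl x y, S.len δ ≤ D)
include hD

omit [CompactSpace M] in
theorem cnt_move (x y x' y' : M) (R : ℝ) : cnt S x y R ≤ cnt S x' y' (R + 2 * D) := by
  obtain ⟨α, hα⟩ := hD x' x
  obtain ⟨β, hβ⟩ := hD y y'
  refine ncard_le_ncard_of_injOn (fun γ => (α.trans γ).trans β) (fun γ hγ => ?_)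
    (fun γ _ γ' _ h => C1.trans_left_inj α (C1.trans_right_inj β h)) (C1.finite_len_le S _ _ _)
  have h1 := S.len_trans (α.trans γ) β
  have h2 := S.len_trans α γ
  have h3 : S.len γ ≤ R := hγ
  show S.len _ ≤ _
  linarith

omit [CompactSpace M] in
theorem cnt_add (x : M) {R T : ℝ} (hR : 0 ≤ R) (hT : 0 ≤ T) :
    cnt S x x (R + T) ≤ cnt S x x (R + D) * cnt S x x (T + D) := by
  have h1 : {α : Cl x x | S.len α ≤ R + T} ⊆ (fun q : Cl x x × Cl x x => q.1.trans q.2) ''
      ({α : Cl x x | S.len α ≤ R + D} ×ˢ {α : Cl x x | S.len α ≤ T + D}) := by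
    intro α hα
    have hα' : S.len α ≤ R + T := hα
    have hl := S.len_nonneg α
    obtain ⟨s, hs0, hs1, hs2, hs3⟩ : ∃ s : ℝ, 0 ≤ s ∧ s ≤ 1 ∧ s * S.len α ≤ R ∧
        (1 - s) * S.len α ≤ T := by
      rcases le_or_gt (S.len α) R with h | h
      · exact ⟨1, zero_le_one, le_rfl, by linarith, by linarith⟩
      · have h0 : 0 < S.len α := hR.trans_lt h
        refine ⟨R / S.len α, by positivity, (div_le_one h0).2 h.le, ?_, ?_⟩
        · rw [div_mul_cancel₀ _ h0.ne']
        · rw [sub_mul, div_mul_cancel₀ _ h0.ne']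
          linarith
    obtain ⟨z, α₁, α₂, h2, -, h3, h4⟩ := C1.exists_cut S α hs0 hs1
    obtain ⟨δ, hδ⟩ := hD z x
    refine ⟨(α₁.trans δ, δ.symm.trans α₂), ⟨?_, ?_⟩, ?_⟩
    · show S.len _ ≤ _
      linarith [S.len_trans α₁ δ]
    · show S.len _ ≤ _
      linarith [S.len_trans δ.symm α₂, S.len_symm δ]
    · show (α₁.trans δ).trans (δ.symm.trans α₂) = α
      rw [Path.Homotopic.Quotient.trans_assoc, C1.trans_cancel_left, h2]
  have hf := (C1.finite_len_le S x x (R + D)).prod (C1.finite_len_le S x x (T + D))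
  refine (ncard_le_ncard h1 (hf.image _)).trans ((ncard_image_le hf).trans (le_of_eq ?_))
  exact ncard_prod

end diam

theorem log_nat_le {a b : ℕ} (h : a ≤ b) : Real.log a ≤ Real.log b := by
  rcases a.eq_zero_or_pos with rfl | ha
  · simpa using Real.log_natCast_nonneg b
  · exact Real.log_le_log (by exact_mod_cast ha) (by exact_mod_cast h)

/-- The growth rate exists. -/
theorem exists_rate [ConnectedSpace M] : ∃ Λ : ℝ, 0 ≤ Λ ∧
    (∀ x y, Tendsto (fun R : ℝ => Real.log (cnt S x y R) / R) atTop (𝓝 Λ)) ∧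
    ∀ s, Λ < s → ∃ C : ℝ, ∀ (x y : M) (R : ℝ), 0 ≤ R → cnt S x y R ≤ C * Real.exp (s * R) := by
  obtain ⟨D, hD0, hD⟩ := exists_diam S
  obtain ⟨x₀⟩ : Nonempty M := inferInstance
  set b : ℕ → ℝ := fun k => Real.log (cnt S x₀ x₀ (k + 2 * D)) with hb
  have hpos : ∀ k : ℕ, (0 : ℝ) < cnt S x₀ x₀ (k + 2 * D) := fun k => by
    exact_mod_cast cnt_pos S x₀ (by positivity)
  have hsub : Subadditive b := by
    intro k l
    have h1 := cnt_add S hD x₀ (R := k + D) (T := l + D) (by positivity) (by positivity)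
    rw [show (k : ℝ) + D + (l + D) = (k + l : ℕ) + 2 * D by push_cast; ring,
      show (k : ℝ) + D + D = k + 2 * D by ring, show (l : ℝ) + D + D = l + 2 * D by ring] at h1
    refine (log_nat_le h1).trans (le_of_eq ?_)
    rw [Nat.cast_mul, Real.log_mul (hpos k).ne' (hpos l).ne']
  have hb0 : ∀ k, 0 ≤ b k := fun k => Real.log_natCast_nonneg _
  have hlim := hsub.tendsto_lim ⟨0, by
    rintro _ ⟨k, rfl⟩
    exact div_nonneg (hb0 k) k.cast_nonneg⟩
  set Λ := hsub.lim with hΛ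
  have hup : ∀ x y R, Real.log (cnt S x y R) ≤ b ⌈R⌉₊ := fun x y R =>
    log_nat_le ((cnt_move S hD x y x₀ x₀ R).trans
      (cnt_mono S _ _ (add_le_add (Nat.le_ceil R) le_rfl)))
  refine ⟨Λ, ge_of_tendsto' hlim fun k => div_nonneg (hb0 k) k.cast_nonneg, fun x y => ?_,
    fun s hs => ?_⟩
  · have h1 := (hlim.comp (tendsto_nat_ceil_atTop (α := ℝ))).mul
      (tendsto_nat_ceil_div_atTop (R := ℝ))
    have h0 : Tendsto (fun R : ℝ => R - 4 * D) atTop atTop :=
      tendsto_atTop_add_const_right _ _ tendsto_id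
    have h3 : Tendsto (fun R : ℝ => 1 - 4 * D / R) atTop (𝓝 (1 - 0)) :=
      tendsto_const_nhds.sub (tendsto_const_nhds.div_atTop tendsto_id)
    have h2 := (((hlim.comp (tendsto_nat_floor_atTop (α := ℝ))).mul
      (tendsto_nat_floor_div_atTop (R := ℝ))).comp h0).mul h3
    rw [mul_one] at h1
    rw [sub_zero, mul_one, mul_one] at h2
    refine tendsto_of_tendsto_of_tendsto_of_le_of_le' h2 h1 ?_ ?_
    · filter_upwards [eventually_ge_atTop (4 * D + 1)] with R hR
      have h4 : (0 : ℝ) < ⌊R - 4 * D⌋₊ := by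
        exact_mod_cast Nat.floor_pos.2 (by linarith)
      have h5 : 0 < R - 4 * D := by linarith
      have h6 : 0 < R := by linarith
      have h7 : b ⌊R - 4 * D⌋₊ ≤ Real.log (cnt S x y R) := by
        refine log_nat_le ((cnt_move S hD x₀ x₀ x y _).trans (cnt_mono S _ _ ?_))
        linarith [Nat.floor_le h5.le]
      refine le_trans (le_of_eq ?_) (div_le_div_of_nonneg_right h7 h6.le)
      simp only [Function.comp_apply]
      field_simp
    · filter_upwards [eventually_gt_atTop 0] with R hR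
      have h4 : (0 : ℝ) < ⌈R⌉₊ := by exact_mod_cast Nat.ceil_pos.2 hR
      refine (div_le_div_of_nonneg_right (hup x y R) hR.le).trans (le_of_eq ?_)
      simp only [Function.comp_apply]
      field_simp
  · have hs0 : 0 ≤ s :=
      (ge_of_tendsto' hlim fun k => div_nonneg (hb0 k) k.cast_nonneg).trans hs.le
    obtain ⟨k₀, hk₀⟩ := eventually_atTop.1 (hlim.eventually (gt_mem_nhds hs))
    refine ⟨Real.exp (s * (k₀ + 2)), fun x y R hR => ?_⟩
    have h1 : Real.log (cnt S x y R) ≤ b (⌈R⌉₊ + k₀ + 1) := by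
      refine (hup x y R).trans (log_nat_le (cnt_mono S _ _ ?_))
      push_cast
      linarith [Nat.cast_nonneg (α := ℝ) k₀]
    have h2 := hk₀ (⌈R⌉₊ + k₀ + 1) (by omega)
    rw [div_lt_iff₀ (by positivity)] at h2
    have h3 : ((⌈R⌉₊ + k₀ + 1 : ℕ) : ℝ) ≤ k₀ + 2 + R := by
      push_cast
      linarith [Nat.ceil_lt_add_one hR]
    rw [← Real.exp_add, ← mul_add]
    refine (Real.le_exp_log _).trans (Real.exp_le_exp.2 ?_)
    exact h1.trans (h2.le.trans (mul_le_mul_of_nonneg_left h3 hs0))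

variable [ChartedSpace (EV n) M] [IsManifold 𝓘(ℝ, EV n) ∞ M] {g : RMetric (EV n) M}
  {φ : ℝ → UT g → UT g}

/-- **Manning.** -/
theorem exists_rate_top [ConnectedSpace M] (hn : 2 ≤ n) (hφ : IsGeoFlow g φ) (h : NegCurvature g) :
    ∃ Λ : ℝ, 0 < Λ ∧ topEntropy (φ 1) = ENNReal.ofReal Λ ∧
      ∀ x y, Tendsto (fun R : ℝ => Real.log (cnt (sys g (npc_of_neg h)) x y R) / R) atTop (𝓝 Λ) := by
  obtain ⟨Λ, h0, h1, h2⟩ := exists_rate (sys g (npc_of_neg h))
  have h3 : topEntropy (φ 1) = ENNReal.ofReal Λ := by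
    refine le_antisymm (ENNReal.le_of_forall_pos_le_add fun ε hε _ => ?_)
      (le_of_forall_gt_imp_ge_of_dense fun b hb => ?_)
    · have hε' : (0 : ℝ) < ε := hε
      obtain ⟨C, hC⟩ := h2 (Λ + ε) (by linarith)
      rw [← ENNReal.ofReal_coe_nnreal, ← ENNReal.ofReal_add h0 hε'.le]
      exact topEntropy_le_of_growthLE hφ _ (by linarith)
        ⟨C, fun x y R hR => ⟨C1.finite_len_le _ x y R, hC x y R hR⟩⟩
    · rcases eq_or_ne b ⊤ with rfl | hb'
      · exact le_top
      obtain ⟨s, hs, rfl⟩ : ∃ s : ℝ, 0 < s ∧ b = ENNReal.ofReal s :=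
        ⟨b.toReal, ENNReal.toReal_pos (ne_bot_of_gt hb) hb', (ENNReal.ofReal_toReal hb').symm⟩
      obtain ⟨C, hC⟩ := growthLE_of_topEntropy hφ (npc_of_neg h) hs hb
      obtain ⟨x⟩ : Nonempty M := inferInstance
      have h4 : Tendsto (fun R : ℝ => s + Real.log C / R) atTop (𝓝 (s + 0)) :=
        tendsto_const_nhds.add (tendsto_const_nhds.div_atTop tendsto_id)
      rw [add_zero] at h4
      refine ENNReal.ofReal_le_ofReal (le_of_tendsto_of_tendsto (h1 x x) h4 ?_)
      filter_upwards [eventually_gt_atTop 0] with R hR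
      have h5 : (0 : ℝ) < cnt (sys g (npc_of_neg h)) x x R := by
        exact_mod_cast cnt_pos _ x hR.le
      have h6 : (cnt (sys g (npc_of_neg h)) x x R : ℝ) ≤ C * Real.exp (s * R) := (hC x x R hR.le).2
      have h7 : 0 < C := pos_of_mul_pos_left (h5.trans_le h6) (Real.exp_pos _).le
      have h8 := Real.log_le_log h5 h6
      rw [Real.log_mul h7.ne' (Real.exp_pos _).ne', Real.log_exp] at h8
      rw [div_le_iff₀ hR, add_mul, div_mul_cancel₀ _ hR.ne']
      linarith
  refine ⟨Λ, ?_, h3, h1⟩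
  have h4 := topEntropy_pos hn hφ h
  rw [h3] at h4
  simpa using h4

end Vale.Agent.N207
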