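import Vale.Agent.P207.FDefs

/-!
# P207: invariant measures, measures of maximal entropy, geodesic arcs
-/

open scoped Manifold ContDiff Topology
open MeasureTheory Filter

noncomputable section

namespace Vale.Agent.N207

open Vale.Agent.P255 (RMetric)
open Vale.Agent.P207F

variable {E : Type} [NormedAddCommGroup E] [NormedSpace ℝ E] {M : Type} [TopologicalSpace M]
  [ChartedSpace E M] [IsManifold 𝓘(ℝ, E) ∞ M]

/-- `ν` is a Borel probability measure on the unit tangent bundle that is invariant under the geodesic
flow. -/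
def FlowInv (g : RMetric E M) (ν : Measure (UT g)) : Prop :=
  IsProbabilityMeasure ν ∧ ∀ t, MeasurePreserving (geoFlow g t) ν ν

/-- `ν` is a measure of maximal entropy: it is invariant, and no invariant probability measure has a
larger entropy. -/
def IsMaxEntropy (g : RMetric E M) (ν : Measure (UT g)) : Prop :=
  FlowInv g ν ∧ ∀ ν', FlowInv g ν' → ksEntropy ν' (geoFlow g 1) ≤ ksEntropy ν (geoFlow g 1)

/-- The geodesic arcs from `x` to `y` of length at most `R`, as pairs (length, initial unit vector). -/
def arcs (g : RMetric E M) (x y : M) (R : ℝ) : Set (ℝ × UT g) :=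
  {q | 0 < q.1 ∧ q.1 ≤ R ∧ q.2.pt = x ∧ (geoFlow g q.1 q.2).pt = y}

/-- The mean of `a` over the geodesic arcs from `x` to `y` of length at most `R`: the sum of the
integrals of `a` along the arcs, divided by the sum of their lengths. -/
def arcMean (g : RMetric E M) (x y : M) (R : ℝ) (a : UT g → ℝ) : ℝ :=
  (∑ᶠ q ∈ arcs g x y R, ∫ t in (0 : ℝ)..q.1, a (geoFlow g t q.2)) / ∑ᶠ q ∈ arcs g x y R, q.1

/-- The geodesic arcs from `x` to `y` of length at most `R j` equidistribute with respect to the
probability measure `ν`, for some sequence `R j → ∞`. -/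
def IsArcLimit (g : RMetric E M) (x y : M) (ν : Measure (UT g)) : Prop :=
  IsProbabilityMeasure ν ∧ ∃ R : ℕ → ℝ, Tendsto R atTop atTop ∧ ∀ a : UT g → ℝ, Continuous a →
    Tendsto (fun j => arcMean g x y (R j) a) atTop (𝓝 (∫ p, a p ∂ν))

end Vale.Agent.N207
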