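import Vale.Agent.P109.H787.Shannon
import Mathlib

/-!
# P207: entropy estimates for the hard half of the variational principle
-/

open MeasureTheory Set Filter Topology
open scoped ENNReal

noncomputable section

namespace Vale.Agent.N207

open Vale.Agent.P109.KS

variable {X : Type} [MeasurableSpace X] {A B : Type}

/-- The fibres of `F` are measurable. -/
def MF (F : X → A) : Prop := ∀ a, MeasurableSet (F ⁻¹' {a})

theorem MF.comp {Y : Type} [MeasurableSpace Y] {F : X → A} (hF : MF F) {S : Y → X}
    (hS : Measurable S) : MF fun y => F (S y) := fun a => hS (hF a)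

theorem MF.prod {F : X → A} {G : X → B} (hF : MF F) (hG : MF G) : MF fun x => (F x, G x) := by
  intro q
  have h3 : (fun x => (F x, G x)) ⁻¹' {q} = F ⁻¹' {q.1} ∩ G ⁻¹' {q.2} := by
    ext x
    simp [Prod.ext_iff]
  rw [h3]
  exact (hF _).inter (hG _)

theorem MF.pi {ι : Type} [Finite ι] {F : ι → X → A} (hF : ∀ i, MF (F i)) :
    MF fun x i => F i x := by
  intro a
  have h3 : (fun x i => F i x) ⁻¹' {a} = ⋂ i, F i ⁻¹' {a i} := by
    ext x
    simp [funext_iff]
  rw [h3]
  exact MeasurableSet.iInter fun i => hF i _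

theorem MF.map [Finite A] {F : X → A} (hF : MF F) (e : A → B) : MF fun x => e (F x) := by
  intro b
  have h3 : (fun x => e (F x)) ⁻¹' {b} = ⋃ a : {a // e a = b}, F ⁻¹' {a.1} := by
    ext x
    simp
  rw [h3]
  exact MeasurableSet.iUnion fun a => hF _

theorem MF.name {T : X → X} (hT : Measurable T) {f : X → A} (hf : MF f) (n : ℕ) :
    MF (name T f n) := MF.pi fun i : Fin n => hf.comp (hT.iterate i)

variable [Fintype A] [Fintype B] {μ : Measure X}

theorem shannon_map {Y : Type} [MeasurableSpace Y] {F : Y → A} (hF : MF F) {S : X → Y}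
    (hS : Measurable S) : shannon (μ.map S) F = shannon μ fun x => F (S x) := by
  unfold shannon
  refine Finset.sum_congr rfl fun a _ => ?_
  rw [map_measureReal_apply hS (hF a)]
  rfl

theorem shannon_mp {F : X → A} (hF : MF F) {S : X → X} (hS : MeasurePreserving S μ μ) :
    shannon μ (fun x => F (S x)) = shannon μ F := by
  rw [← shannon_map hF hS.measurable, hS.map_eq]

variable [IsProbabilityMeasure μ]

theorem shannon_nonneg (F : X → A) : 0 ≤ shannon μ F :=
  Finset.sum_nonneg fun _ _ => Real.negMulLog_nonneg measureReal_nonneg measureReal_le_one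

/-- `F` is read off from `G` and `H`. -/
theorem shannon_le_add {C : Type} [Fintype C] {F : X → A} {G : X → B} {H : X → C} (hG : MF G)
    (hH : MF H) (e : B × C → A) (h : ∀ x, F x = e (G x, H x)) :
    shannon μ F ≤ shannon μ G + shannon μ H := by
  have h1 := shannon_comp_le (μ := μ) (hG.prod hH) e
  rw [show F = fun x => e (G x, H x) from funext h]
  exact h1.trans (shannon_prod_le hG hH)

theorem shannon_pi_le {n : ℕ} {F : Fin n → X → A} (hF : ∀ i, MF (F i)) :
    shannon μ (fun x i => F i x) ≤ ∑ i, shannon μ (F i) := by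
  induction n with
  | zero =>
    have := shannon_le_log_card (μ := μ) (MF.pi hF)
    simpa using this
  | succ n ih =>
    rw [Fin.sum_univ_succ]
    refine le_trans (shannon_le_add (hF 0) (MF.pi fun i : Fin n => hF i.succ)
      (fun q => Fin.cons q.1 q.2) fun x => ?_) (add_le_add le_rfl (ih fun i => hF i.succ))
    funext i
    refine Fin.cases ?_ (fun i => ?_) i <;> simp

/-- Small fibres give a large entropy. -/
theorem le_shannon {F : X → A} (hF : MF F) {c : ℝ}
    (h : ∀ a, μ.real (F ⁻¹' {a}) ≤ Real.exp (-c)) : c ≤ shannon μ F := by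
  have h1 : c = ∑ a, μ.real (F ⁻¹' {a}) * c := by
    rw [← Finset.sum_mul, sum_measureReal_eq_one hF, one_mul]
  rw [h1]
  refine Finset.sum_le_sum fun a _ => ?_
  rcases (measureReal_nonneg (μ := μ) (s := F ⁻¹' {a})).eq_or_lt with h0 | h0
  · rw [← h0]
    simp
  · have h2 := Real.log_le_log h0 (h a)
    rw [Real.log_exp] at h2
    rw [Real.negMulLog, neg_mul, ← mul_neg]
    exact mul_le_mul_of_nonneg_left (by linarith) h0.le

/-- The entropy of the symbols `a, …, a + b - 1`. -/
def blk (μ : Measure X) (T : X → X) (f : X → A) (a b : ℕ) : ℝ :=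
  shannon μ fun x => name T f b (T^[a] x)

theorem blk_le {T : X → X} (hT : Measurable T) {f : X → A} (hf : MF f) (a : ℕ) {b c d : ℕ}
    (h : b ≤ c + d) : blk μ T f a b ≤ blk μ T f a c + blk μ T f (a + c) d := by
  refine shannon_le_add ((hf.name hT c).comp (hT.iterate a))
    ((hf.name hT d).comp (hT.iterate (a + c)))
    (fun q i => if hi : (i : ℕ) < c then q.1 ⟨i, hi⟩ else q.2 ⟨i - c, by omega⟩) fun x => ?_
  funext i
  split_ifs with hi
  · rfl
  · simp only [name]
    rw [← Function.iterate_add_apply, ← Function.iterate_add_apply]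
    congr 2
    omega

theorem blk_le_mul {T : X → X} (hT : Measurable T) {f : X → A} (hf : MF f) (a b : ℕ) :
    blk μ T f a b ≤ b * Real.log (Fintype.card A) := by
  have := shannon_le_log_card (μ := μ) ((hf.name hT b).comp (hT.iterate a))
  unfold blk
  simpa using this

/-- The estimate of Misiurewicz. -/
theorem misiu {T : X → X} (hT : Measurable T) {f : X → A} (hf : MF f) (N q : ℕ) :
    q * shannon μ (name T f N) ≤
      ∑ l ∈ Finset.range N, blk μ T f l q + q * (q * Real.log (Fintype.card A)) := by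
  set G : ℕ → ℝ := fun l => blk μ T f l (N - l) with hG
  have h1 : ∑ l ∈ Finset.range N, G l ≤
      ∑ l ∈ Finset.range N, blk μ T f l q + ∑ l ∈ Finset.range N, G (q + l) := by
    rw [← Finset.sum_add_distrib]
    refine Finset.sum_le_sum fun l _ => ?_
    rw [add_comm q l]
    exact blk_le hT hf l (by omega)
  have h2 := Finset.sum_range_add G q N
  have h3 := Finset.sum_range_add G N q
  rw [add_comm N q] at h3
  have h4 : ∑ l ∈ Finset.range q, G (N + l) ≤ 0 := by
    refine Finset.sum_nonpos fun l _ => ?_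
    have := blk_le_mul (μ := μ) hT hf (N + l) (N - (N + l))
    rw [show N - (N + l) = 0 by omega] at this
    simpa [hG] using this
  have hL : 0 ≤ Real.log (Fintype.card A) := Real.log_natCast_nonneg _
  have h5 : ∀ l ∈ Finset.range q,
      shannon μ (name T f N) - q * Real.log (Fintype.card A) ≤ G l := by
    intro l hl
    have h6 := blk_le (μ := μ) hT hf 0 (b := N) (c := l) (d := N - l) (by omega)
    have h7 := blk_le_mul (μ := μ) hT hf 0 l
    have h8 : (l : ℝ) ≤ q := by exact_mod_cast (Finset.mem_range.1 hl).le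
    have h9 := mul_le_mul_of_nonneg_right h8 hL
    rw [zero_add] at h6
    have h10 : blk μ T f 0 N = shannon μ (name T f N) := rfl
    simp only [hG]
    linarith
  have h6 := Finset.card_nsmul_le_sum _ _ _ h5
  rw [Finset.card_range, nsmul_eq_mul, mul_sub] at h6
  linarith

/-- The average of the first `N` images of `σ`. -/
def avg (T : X → X) (N : ℕ) (σ : Measure X) : Measure X :=
  (N : ℝ≥0∞)⁻¹ • ∑ l ∈ Finset.range N, σ.map T^[l]

theorem avg_real {T : X → X} (hT : Measurable T) (N : ℕ) {S : Set X} (hS : MeasurableSet S) :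
    (avg T N μ).real S = ∑ l ∈ Finset.range N, (N : ℝ)⁻¹ • μ.real (T^[l] ⁻¹' S) := by
  rw [avg, measureReal_def, Measure.smul_apply, Measure.finsetSum_apply, smul_eq_mul,
    ENNReal.toReal_mul, ENNReal.toReal_sum fun _ _ => by finiteness, Finset.mul_sum]
  refine Finset.sum_congr rfl fun l _ => ?_
  rw [Measure.map_apply (hT.iterate l) hS]
  simp [measureReal_def]

theorem avg_prob {T : X → X} (hT : Measurable T) {N : ℕ} (hN : 0 < N) :
    IsProbabilityMeasure (avg T N μ) := by
  refine ⟨?_⟩
  rw [avg, Measure.smul_apply, Measure.finsetSum_apply, smul_eq_mul]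
  have : ∀ l ∈ Finset.range N, μ.map T^[l] univ = 1 := fun l _ => by
    rw [Measure.map_apply (hT.iterate l) MeasurableSet.univ]
    simp
  rw [Finset.sum_congr rfl this, Finset.sum_const, Finset.card_range, nsmul_eq_mul, mul_one]
  exact ENNReal.inv_mul_cancel (by simpa using hN.ne') (by simp)

theorem le_shannon_avg {T : X → X} (hT : Measurable T) {N : ℕ} (hN : 0 < N) {F : X → A}
    (hF : MF F) :
    (N : ℝ)⁻¹ * ∑ l ∈ Finset.range N, shannon μ (fun x => F (T^[l] x)) ≤ shannon (avg T N μ) F := by
  unfold shannon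
  rw [Finset.sum_comm, Finset.mul_sum]
  refine Finset.sum_le_sum fun a _ => ?_
  rw [avg_real hT N (hF a), Finset.mul_sum]
  have hN' : (0 : ℝ) < N := by exact_mod_cast hN
  refine Real.concaveOn_negMulLog.le_map_sum (w := fun _ => (N : ℝ)⁻¹)
    (p := fun l => μ.real (T^[l] ⁻¹' (F ⁻¹' {a}))) (fun _ _ => by positivity) ?_
    fun _ _ => measureReal_nonneg
  rw [Finset.sum_const, Finset.card_range, nsmul_eq_mul, mul_inv_cancel₀ hN'.ne']

/-- The entropy of short names for the average. -/
theorem le_shannon_avg_name {T : X → X} (hT : Measurable T) {N : ℕ} (hN : 0 < N) {f : X → A}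
    (hf : MF f) {s : ℝ} (h : ∀ a, μ.real (name T f N ⁻¹' {a}) ≤ Real.exp (-(s * N))) (q : ℕ) :
    q * s - q * (q * Real.log (Fintype.card A)) / N ≤ shannon (avg T N μ) (name T f q) := by
  have hN' : (0 : ℝ) < N := by exact_mod_cast hN
  have h1 := le_shannon (hf.name hT N) h
  have h2 := misiu (μ := μ) hT hf N q
  have h3 := mul_le_mul_of_nonneg_left h1 (Nat.cast_nonneg (α := ℝ) q)
  refine le_trans ?_ (le_shannon_avg hT hN (hf.name hT q))
  rw [inv_mul_eq_div, le_div_iff₀ hN', sub_mul, div_mul_cancel₀ _ hN'.ne']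
  unfold blk at h2
  linarith

theorem limsup_le_ks {T : X → X} (hT : Measurable T) {f : X → A}
    (hf : MF f) :
    limsup (fun n : ℕ => ENNReal.ofReal (shannon μ (name T f n) / n)) atTop ≤ ksEntropy μ T := by
  set e := Fintype.equivFin A
  have h1 : MF fun x => e (f x) := hf.map e
  refine le_trans ?_ (le_iSup_of_le (Fintype.card A) (le_iSup₂_of_le (fun x => e (f x))
    (measurable_to_countable' h1) le_rfl))
  refine limsup_le_limsup (Eventually.of_forall fun n => ?_)
  refine ENNReal.ofReal_le_ofReal (div_le_div_of_nonneg_right ?_ n.cast_nonneg)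
  have h2 := shannon_comp_le (μ := μ) (h1.name hT n) fun w i => e.symm (w i)
  have h3 : (fun x i => e.symm (name T (fun x => e (f x)) n x i)) = name T f n := by
    funext x i
    simp [name]
  rwa [h3] at h2

theorem le_ks {T : X → X} (hT : Measurable T) {f : X → A} (hf : MF f) {h : ℝ}
    (H : ∀ n : ℕ, n * h ≤ shannon μ (name T f n)) : ENNReal.ofReal h ≤ ksEntropy μ T := by
  refine le_trans (le_limsup_of_frequently_le' (Eventually.frequently ?_)) (limsup_le_ks hT hf)
  filter_upwards [eventually_gt_atTop 0] with n hn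
  refine ENNReal.ofReal_le_ofReal ?_
  rw [le_div_iff₀ (by exact_mod_cast hn), mul_comm]
  exact H n

theorem ev_of_ks_lt {T : X → X} (hT : Measurable T) {f : X → A} (hf : MF f) {c : ℝ}
    (H : ksEntropy μ T < ENNReal.ofReal c) : ∀ᶠ n : ℕ in atTop, shannon μ (name T f n) ≤ c * n := by
  filter_upwards [eventually_lt_of_limsup_lt ((limsup_le_ks hT hf).trans_lt H),
    eventually_gt_atTop 0] with n hn h0
  have h1 := (ENNReal.ofReal_lt_ofReal_iff'.1 hn).1
  rw [div_lt_iff₀ (by exact_mod_cast h0)] at h1
  exact h1.le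

omit [IsProbabilityMeasure μ] in
theorem ks_le {T : X → X} {c : ℝ} (H : ∀ (k : ℕ) (f : X → Fin k), MF f → ∀ ε : ℝ, 0 < ε →
    ∀ᶠ n : ℕ in atTop, shannon μ (name T f n) ≤ (c + ε) * n) :
    ksEntropy μ T ≤ ENNReal.ofReal c := by
  refine iSup_le fun k => iSup₂_le fun f hf => ?_
  refine ENNReal.le_of_forall_pos_le_add fun ε hε _ => ?_
  refine limsup_le_of_le (h := ?_)
  filter_upwards [H k f (fun a => hf (measurableSet_singleton a)) ε hε, eventually_gt_atTop 0]
    with n hn h0
  rw [← ENNReal.ofReal_coe_nnreal]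
  refine le_trans (ENNReal.ofReal_le_ofReal ?_) ENNReal.ofReal_add_le
  rw [div_le_iff₀ (by exact_mod_cast h0)]
  exact hn

end Vale.Agent.N207
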