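import Vale.Agent.N207.Arc
import Vale.Agent.N207.Count

/-!
# P207: the geodesic arcs between two points
-/

open scoped Manifold ContDiff ENNReal Topology
open MeasureTheory Set Filter

noncomputable section

namespace Vale.Agent.N207

open Vale.Agent.P255 (RMetric Npc ExpSys)
open Vale.Agent.P207

variable {n : ℕ} {M : Type} [TopologicalSpace M] [ChartedSpace (EV n) M]
  [IsManifold 𝓘(ℝ, EV n) ∞ M] {g : RMetric (EV n) M}

/-- The arcs of `φ` from `x` to `y` of length at most `R`. -/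
def arc (φ : ℝ → UT g → UT g) (x y : M) (R : ℝ) : Set (ℝ × UT g) :=
  {q | 0 < q.1 ∧ q.1 ≤ R ∧ q.2.pt = x ∧ (φ q.1 q.2).pt = y}

/-- The tangent vector of an arc. -/
def vq (q : ℝ × UT g) : EV n := q.1 • (q.2.vec : EV n)

theorem ut_ext {p p' : UT g} (h1 : p.pt = p'.pt) (h2 : (p.vec : EV n) = (p'.vec : EV n)) :
    p = p' := by
  obtain ⟨⟨x, v⟩, h⟩ := p
  obtain ⟨⟨x', v'⟩, h'⟩ := p'
  obtain rfl : x = x' := h1
  obtain rfl : v = v' := h2
  rfl

variable [CompactSpace M] [T2Space M] {φ : ℝ → UT g → UT g} {x y : M} {R : ℝ}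

theorem nrm_vq (h : Npc (mt g)) {q : ℝ × UT g} (hq : q ∈ arc φ x y R) :
    (sys g h).nrm x (vq q) = q.1 := by
  obtain ⟨h1, -, rfl, -⟩ := hq
  refine (C1.nrm_smul (sys g h) q.2.pt q.1 (q.2.vec : EV n)).trans ?_
  rw [nrm_vec_eq_one h, mul_one, abs_of_pos h1]

theorem e_vq (hφ : IsGeoFlow g φ) (h : Npc (mt g)) {q : ℝ × UT g} (hq : q ∈ arc φ x y R) :
    (sys g h).e x (vq q) = y := by
  obtain ⟨-, -, rfl, h2⟩ := hq
  rw [← h2, hφ.pt_eq_e h]
  rfl

theorem vq_inj (h : Npc (mt g)) : InjOn vq (arc φ x y R) := by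
  intro q hq q' hq' e
  have h1 : q.1 = q'.1 := by rw [← nrm_vq h hq, ← nrm_vq h hq', e]
  refine Prod.ext h1 (ut_ext (hq.2.2.1.trans hq'.2.2.1.symm) ?_)
  unfold vq at e
  rw [← h1] at e
  exact smul_right_injective (EV n) hq.1.ne' e

theorem vq_image (hφ : IsGeoFlow g φ) (h : Npc (mt g)) : vq '' arc φ x y R =
    ((sys g h).vec '' {α : Cl x y | (sys g h).len α ≤ R}) \ {0} := by
  ext v
  constructor
  · rintro ⟨q, hq, rfl⟩
    refine ⟨⟨Path.Homotopic.Quotient.mk ((sys g h).rayTo x y _ (e_vq hφ h hq)), ?_,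
      (sys g h).vec_rayTo _ _ _ _⟩, fun h0 => ?_⟩
    · show (sys g h).len _ ≤ R
      rw [C1.len_mk_rayTo, nrm_vq h hq]
      exact hq.2.1
    · have h1 := nrm_vq h hq
      rw [show vq q = 0 from h0, (sys g h).nrm_zero] at h1
      exact hq.1.ne h1
  · rintro ⟨⟨α, hα, rfl⟩, h0⟩
    have h1 : 0 < (sys g h).len α :=
      lt_of_le_of_ne ((sys g h).len_nonneg α) fun h2 => h0 ((sys g h).eq_zero_of_nrm h2.symm)
    have h2 : vq ((sys g h).len α, mkUT g x _ (ip_unit h α h1)) = (sys g h).vec α := by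
      show (sys g h).len α • (((sys g h).len α)⁻¹ • (sys g h).vec α) = _
      rw [smul_smul, mul_inv_cancel₀ h1.ne', one_smul]
    refine ⟨((sys g h).len α, mkUT g x _ (ip_unit h α h1)), ⟨h1, hα, rfl, ?_⟩, h2⟩
    rw [hφ.pt_eq_e h]
    exact (congrArg ((sys g h).e x) h2).trans ((sys g h).e_vec α)

theorem arc_finite (hφ : IsGeoFlow g φ) (h : Npc (mt g)) : (arc φ x y R).Finite := by
  refine Finite.of_finite_image ?_ (vq_inj h)
  rw [vq_image hφ h]
  exact ((C1.finite_len_le _ x y R).image _).sdiff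

theorem arc_ncard (hφ : IsGeoFlow g φ) (h : Npc (mt g)) :
    (arc φ x y R).ncard ≤ cnt (sys g h) x y R ∧ cnt (sys g h) x y R ≤ (arc φ x y R).ncard + 1 := by
  have h1 : cnt (sys g h) x y R = ((sys g h).vec '' {α : Cl x y | (sys g h).len α ≤ R}).ncard :=
    (ncard_image_of_injective _ fun _ _ e => (sys g h).vec_inj e).symm
  rw [← (vq_inj h).ncard_image, vq_image hφ h, h1]
  refine ⟨ncard_sdiff_singleton_le _ _, ?_⟩
  have := pred_ncard_le_ncard_sdiff_singleton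
    ((sys g h).vec '' {α : Cl x y | (sys g h).len α ≤ R}) 0
  omega

theorem rate_of_le {u v : ℝ → ℕ} {Λ : ℝ} (hΛ : 0 < Λ)
    (h : Tendsto (fun R => Real.log (u R) / R) atTop (𝓝 Λ))
    (huv : ∀ R, v R ≤ u R ∧ u R ≤ v R + 1) : Tendsto (fun R => Real.log (v R) / R) atTop (𝓝 Λ) := by
  have h1 : Tendsto (fun R : ℝ => Real.log (u R) / R - Real.log 2 / R) atTop (𝓝 (Λ - 0)) :=
    h.sub (tendsto_const_nhds.div_atTop tendsto_id)
  rw [sub_zero] at h1
  refine tendsto_of_tendsto_of_tendsto_of_le_of_le' h1 h ?_ ?_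
  · filter_upwards [ev_exp_le h hΛ (half_lt_self hΛ), eventually_gt_atTop 0] with R h2 h3
    have h4 : (1 : ℝ) < u R := (Real.one_lt_exp_iff.2 (by positivity)).trans_le h2
    have h5 : 1 < u R := by exact_mod_cast h4
    have h6 : u R ≤ 2 * v R := by have := (huv R).2; omega
    have h7 : (0 : ℝ) < v R := by exact_mod_cast (by omega : 0 < v R)
    have h8 := log_nat_le h6
    rw [Nat.cast_mul, Real.log_mul (by simp) h7.ne', Nat.cast_ofNat] at h8
    rw [← sub_div]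
    exact div_le_div_of_nonneg_right (by linarith) h3.le
  · filter_upwards [eventually_gt_atTop 0] with R h3
    exact div_le_div_of_nonneg_right (log_nat_le (huv R).1) h3.le

/-- The metric on the unit tangent bundle. -/
abbrev met (g : RMetric (EV n) M) : MetricSpace (UT g) :=
  @TopologicalSpace.metrizableSpaceMetric (UT g) _ (metrizableSpace_UT g)

theorem arc_sep (hφ : IsGeoFlow g φ) (h : Npc (mt g)) (x y : M) :
    letI := met g
    ∃ ε > 0, ∃ η > 0, ∀ (R : ℝ) (N : ℕ), R ≤ N → ∀ q ∈ arc φ x y R, ∀ q' ∈ arc φ x y R,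
      |q'.1 - q.1| ≤ η → (∀ i < N, dist ((φ 1)^[i] q.2) ((φ 1)^[i] q'.2) < ε) → q = q' := by
  let := met g
  have := compactSpace_UT g
  set S := sys g h with hS
  obtain ⟨sy, hsy0, hsy⟩ := C1.exists_systole S
  set η := sy / 3 with hη
  have hη0 : 0 < η := by positivity
  obtain ⟨ε, hε, hnear⟩ := exists_near_of_cover (X := UT g) (M := M)
    (f := fun q : ℝ × UT g => (φ q.1 q.2).pt) ((continuous_pt g).comp hφ.continuous)
    (P := fun x y => ∃ α : Cl x y, S.len α < η) (by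
      intro x₀
      obtain ⟨U, hU, hx, h1⟩ := C1.exists_near S x₀ hη0
      exact ⟨U, hU.mem_nhds hx, h1⟩)
  refine ⟨ε, hε, η, hη0, fun R N hN q hq q' hq' hl hcon => vq_inj h hq hq' ?_⟩
  have hN0 : 0 < N := by exact_mod_cast (hq.1.trans_le hq.2.1).trans_le hN
  have key := eq_of_close S hη0 (by rw [hη]; linarith) hsy (T := N)
    (Path.Homotopic.Quotient.mk (S.rayTo x y _ (e_vq hφ h hq)))
    (Path.Homotopic.Quotient.mk (S.rayTo x y _ (e_vq hφ h hq')))
    (S.vec_rayTo _ _ _ _) (S.vec_rayTo _ _ _ _)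
    (by rw [← hq'.2.2.1]; exact (nrm_vec_eq_one h q'.2).le) hq.1.le (hq.2.1.trans hN) hl ?_
  · have h1 := congrArg S.vec key
    rwa [S.vec_rayTo, S.vec_rayTo] at h1
  · intro t ht
    obtain ⟨i, hi, τ, hτ, hti⟩ : ∃ i < N, ∃ τ ∈ Icc (0 : ℝ) 1, t = τ + i := by
      rcases lt_or_ge ⌊t⌋₊ N with hlt | hge
      · refine ⟨⌊t⌋₊, hlt, t - ⌊t⌋₊, ⟨?_, ?_⟩, by ring⟩
        · have := Nat.floor_le ht.1; linarith
        · have := Nat.lt_floor_add_one t; linarith
      · refine ⟨N - 1, by omega, 1, ⟨zero_le_one, le_rfl⟩, ?_⟩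
        have h1 : (N : ℝ) ≤ t := (Nat.le_floor_iff ht.1).1 hge
        have h2 : t = N := le_antisymm ht.2 h1
        rw [h2, Nat.cast_sub (by omega)]
        simp
    have h1 := hnear _ _ (hcon i hi) τ hτ
    dsimp only at h1
    rw [hφ.iterate_one, hφ.iterate_one, ← hφ.add, ← hφ.add, ← hti, hφ.pt_eq_e h,
      hφ.pt_eq_e h] at h1
    obtain ⟨a, p⟩ := q
    obtain ⟨a', p'⟩ := q'
    obtain ⟨⟨z, v⟩, hv⟩ := p
    obtain ⟨⟨z', v'⟩, hv'⟩ := p'
    obtain rfl : z = x := hq.2.2.1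
    obtain rfl : z' = z := hq'.2.2.1
    exact h1

theorem isFl (hφ : IsGeoFlow g φ) : IsFl φ := ⟨hφ.continuous, hφ.zero, hφ.add⟩

theorem exists_fam [ConnectedSpace M] (hn : 2 ≤ n) (hφ : IsGeoFlow g φ) (h : NegCurvature g) :
    ∃ Λ : ℝ, topEntropy (φ 1) = ENNReal.ofReal Λ ∧
      ∀ x y, @Fam (UT g) (met g) φ (arc φ x y) Λ := by
  obtain ⟨Λ, h0, h1, h2⟩ := exists_rate_top hn hφ h
  let := met g
  exact ⟨Λ, h1, fun x y => ⟨fun R => arc_finite hφ (npc_of_neg h), fun R q hq => ⟨hq.1, hq.2.1⟩,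
    fun R R' q hq h3 => ⟨hq.1, h3, hq.2.2⟩, h0,
    rate_of_le h0 (h2 x y) fun R => arc_ncard hφ (npc_of_neg h), arc_sep hφ (npc_of_neg h) x y⟩⟩

end Vale.Agent.N207
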