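import Vale.Agent.N207.Defs
import Vale.Agent.N207.Geo
import Vale.Agent.P207.Bridge

/-!
# P207: the other forms of entropy rigidity
-/

open scoped Manifold ContDiff ENNReal Topology
open MeasureTheory Set Filter

noncomputable section

namespace Vale.Agent.N207

open Vale.Agent.P255 (RMetric)
open Vale.Agent.P207F

theorem main_of {n : ℕ} (hn : 2 ≤ n) {M : Type} [TopologicalSpace M] [CompactSpace M] [T2Space M]
    [ConnectedSpace M] [ChartedSpace (EV n) M] [IsManifold 𝓘(ℝ, EV n) ∞ M] [MeasurableSpace M]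
    [BorelSpace M] (g : RMetric (EV n) M) (hN : NegCurvature g)
    (hK : hLiou (stdB n) g = hTop g ↔ LocSymmetric g) :
    ((∀ ν, IsMaxEntropy g ν ↔ FlowInv g ν ∧ ksEntropy ν (geoFlow g 1) = hTop g) ∧
      (IsMaxEntropy g (liou (stdB n) g) ↔ LocSymmetric g)) ∧
    (∀ t : ℝ, t ≠ 0 →
      (ksEntropy (liou (stdB n) g) (geoFlow g t) = topEntropy (geoFlow g t) ↔ LocSymmetric g)) ∧
    ∀ x y : M, (∀ R, (arcs g x y R).Finite) ∧
      (∃ h : ℝ, 0 < h ∧ hTop g = ENNReal.ofReal h ∧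
        Tendsto (fun R : ℝ => Real.log (arcs g x y R).ncard / R) atTop (𝓝 h)) ∧
      (∃ ν, IsArcLimit g x y ν) ∧ (∀ ν, IsArcLimit g x y ν → IsMaxEntropy g ν) ∧
      (IsArcLimit g x y (liou (stdB n) g) → LocSymmetric g) := by
  obtain ⟨h1, h2, h3⟩ := wellDefined hn g
  have hφ : P207.IsGeoFlow g (geoFlow g) := (h1 _).2 rfl
  have hm := (h3 _).2 rfl
  have hp : FlowInv g (liou (stdB n) g) := ⟨hm.1, fun t =>
    P207.IsLiouville.measurePreserving (by omega) hφ ((h2 _).2 rfl) hm t⟩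
  obtain ⟨Λ, hΛ, hF⟩ := exists_fam hn hφ hN
  let := met g
  have := P207.compactSpace_UT g
  have hB : @BorelSpace (P207.UT g) (met g).toUniformSpace.toTopologicalSpace _ := ⟨rfl⟩
  have hfl := isFl hφ
  have hle : ∀ ν, FlowInv g ν → ksEntropy ν (geoFlow g 1) ≤ hTop g := fun ν hν =>
    @ks_le_top (P207.UT g) (met g) _ _ hB _ (hfl.right 1) ν hν.1 (hν.2 1)
  have hlim : ∀ x y ν, IsArcLimit g x y ν → FlowInv g ν ∧ ksEntropy ν (geoFlow g 1) = hTop g := by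
    rintro x y ν ⟨h4, R, h5, h6⟩
    obtain ⟨h7, h8⟩ := @Fam.limit (P207.UT g) (met g) _ _ hB _ _ _ (hF x y) hfl ν h4 R h5 h6
    exact ⟨⟨h4, h7⟩, le_antisymm (hle ν ⟨h4, h7⟩) (hΛ.le.trans h8)⟩
  have hex : ∀ x y, ∃ ν, IsArcLimit g x y ν := fun x y => @Fam.exists_limit (P207.UT g) (met g) _ _ hB _ _ _ (hF x y) hfl
  have hmax : ∀ ν, IsMaxEntropy g ν ↔ FlowInv g ν ∧ ksEntropy ν (geoFlow g 1) = hTop g := by
    intro ν
    refine and_congr_right fun hν => ⟨fun h => le_antisymm (hle ν hν) ?_,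
      fun h ν' hν' => (hle ν' hν').trans h.ge⟩
    obtain ⟨x⟩ : Nonempty M := inferInstance
    obtain ⟨ν', h4⟩ := hex x x
    exact (hlim x x ν' h4).2.ge.trans (h ν' (hlim x x ν' h4).1)
  have hL : IsMaxEntropy g (liou (stdB n) g) ↔ LocSymmetric g :=
    (hmax _).trans ((and_iff_right hp).trans hK)
  refine ⟨⟨hmax, hL⟩, fun t ht => Iff.trans ?_ hK, fun x y => ⟨(hF x y).fin,
    ⟨Λ, (hF x y).pos, hΛ, (hF x y).rate⟩, hex x y, fun ν hν => (hmax ν).2 (hlim x y ν hν),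
    fun h => hL.1 ((hmax _).2 (hlim x y _ h))⟩⟩
  have h4 : ksEntropy (liou (stdB n) g) (geoFlow g t) =
      ENNReal.ofReal |t| * hLiou (stdB n) g :=
    @ks_scale (P207.UT g) (met g) _ _ hB _ _ hp.1 hfl hp.2 t ht
  have h5 : topEntropy (geoFlow g t) = ENNReal.ofReal |t| * hTop g :=
    @top_scale (P207.UT g) (met g) _ _ hB _ hfl t ht
  rw [h4, h5]
  exact ENNReal.mul_right_inj (by simpa using ht) ENNReal.ofReal_ne_top

end Vale.Agent.N207
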