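import Vale.Agent.N207.Ent

/-!
# P207: limits of orbit measures of flows have large entropy
-/

open MeasureTheory Set Filter Topology
open scoped ENNReal BoundedContinuousFunction

noncomputable section

namespace Vale.Agent.N207

open Vale.Agent.P109.KS

variable {X : Type} [MetricSpace X] [CompactSpace X] [MeasurableSpace X] [BorelSpace X]

/-- Any two points of `S` stay `δ`-close up to time `N`. -/
def Small (T : X → X) (N : ℕ) (δ : ℝ) (S : Set X) : Prop :=
  ∀ x ∈ S, ∀ y ∈ S, ∀ i < N, dist (T^[i] x) (T^[i] y) < δ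

theorem exists_code (ν : Measure X) [IsFiniteMeasure ν] {δ : ℝ} (hδ : 0 < δ) :
    ∃ (k : ℕ) (f : X → Fin k → Bool), MF f ∧ (∀ x y, f x = f y → dist x y < δ) ∧
      ∀ᵐ x ∂ν, ∀ᶠ y in 𝓝 x, f y = f x := by
  classical
  have h1 : ∀ x : X, ∃ r, 0 < r ∧ r < δ / 2 ∧ ν (frontier (Metric.ball x r)) = 0 := by
    intro x
    obtain ⟨r, hr, h⟩ := exists_null_frontier_thickening ν {x} (half_pos hδ)
    rw [Metric.thickening_singleton] at h
    exact ⟨r, hr.1, hr.2, h⟩
  choose r hr0 hr1 hr2 using h1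
  obtain ⟨t, ht⟩ := isCompact_univ.elim_finite_subcover (fun x : X => Metric.ball x (r x))
    (fun x => Metric.isOpen_ball) (fun x _ => mem_iUnion.2 ⟨x, Metric.mem_ball_self (hr0 x)⟩)
  set c : Fin t.card → X := fun i => (t.equivFin.symm i : X) with hc
  refine ⟨t.card, fun x i => decide (x ∈ Metric.ball (c i) (r (c i))), MF.pi fun i b => ?_,
    fun x y h => ?_, ?_⟩
  · cases b
    · convert (measurableSet_ball (x := c i) (ε := r (c i))).compl using 1
      ext x
      simp
    · convert (measurableSet_ball (x := c i) (ε := r (c i))) using 1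
      ext x
      simp
  · obtain ⟨z, hz, hx⟩ := mem_iUnion₂.1 (ht (mem_univ x))
    have h2 := congrFun h (t.equivFin ⟨z, hz⟩)
    simp only [hc, Equiv.symm_apply_apply, decide_eq_decide] at h2
    have h3 : dist y z < r z := h2.1 hx
    have h4 : dist x z < r z := hx
    have h5 := hr1 z
    linarith [dist_triangle_right x y z]
  · have h2 : ∀ᵐ x ∂ν, ∀ i, x ∉ frontier (Metric.ball (c i) (r (c i))) :=
      ae_all_iff.2 fun i => measure_eq_zero_iff_ae_notMem.1 (hr2 _)
    filter_upwards [h2] with x hx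
    have h3 : ∀ i, ∀ᶠ y in 𝓝 x,
        (y ∈ Metric.ball (c i) (r (c i)) ↔ x ∈ Metric.ball (c i) (r (c i))) := by
      intro i
      by_cases h4 : x ∈ Metric.ball (c i) (r (c i))
      · filter_upwards [Metric.isOpen_ball.mem_nhds h4] with y hy
        exact iff_of_true hy h4
      · have h5 : x ∈ (closure (Metric.ball (c i) (r (c i))))ᶜ := fun h6 =>
          hx i ⟨h6, fun h7 => h4 (interior_subset h7)⟩
        filter_upwards [isClosed_closure.isOpen_compl.mem_nhds h5] with y hy
        exact iff_of_false (fun h6 => hy (subset_closure h6)) h4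
    filter_upwards [eventually_all.2 h3] with y hy
    funext i
    exact decide_eq_decide.2 (hy i)

omit [CompactSpace X] in
theorem tendsto_shannon {A ι : Type} [Fintype A] {L : Filter ι} {μs : ι → ProbabilityMeasure X}
    {ν : ProbabilityMeasure X} (h : Tendsto μs L (𝓝 ν)) {F : X → A}
    (hF : ∀ᵐ x ∂(ν : Measure X), ∀ᶠ y in 𝓝 x, F y = F x) :
    Tendsto (fun i => shannon (μs i : Measure X) F) L (𝓝 (shannon (ν : Measure X) F)) := by
  refine tendsto_finsetSum _ fun a _ => (Real.continuous_negMulLog.tendsto _).comp ?_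
  refine (ENNReal.tendsto_toReal (by finiteness)).comp
    (ProbabilityMeasure.tendsto_measure_of_null_frontier_of_tendsto' h ?_)
  rw [measure_eq_zero_iff_ae_notMem]
  filter_upwards [hF] with x hx hfr
  by_cases h1 : F x = a
  · refine hfr.2 (mem_interior_iff_mem_nhds.2 ?_)
    filter_upwards [hx] with y hy
    exact hy.trans h1
  · obtain ⟨y, h2, h3⟩ := ((mem_closure_iff_frequently.1 hfr.1).and_eventually hx).exists
    exact h1 (h3.symm.trans h2)

/-- **Misiurewicz.** -/
theorem le_ks_of_limit {ι : Type} {L : Filter ι} [L.NeBot] {T : X → X} (hT : Continuous T)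
    {σ : ι → Measure X} {N : ι → ℕ} (hN : Tendsto N L atTop) {μs : ι → ProbabilityMeasure X}
    (hμ : ∀ᶠ i in L, IsProbabilityMeasure (σ i) ∧ (μs i : Measure X) = avg T (N i) (σ i))
    {ν : ProbabilityMeasure X} (hlim : Tendsto μs L (𝓝 ν))
    (hν : MeasurePreserving T (ν : Measure X) ν) {δ : ℝ} (hδ : 0 < δ) {h : ℝ}
    (H : ∀ s < h, ∀ᶠ i in L, ∀ S, MeasurableSet S → Small T (N i) δ S →
      (σ i).real S ≤ Real.exp (-(s * N i))) :
    ENNReal.ofReal h ≤ ksEntropy (ν : Measure X) T := by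
  obtain ⟨k, f, hf, hd, hc⟩ := exists_code (ν : Measure X) hδ
  refine le_ks hT.measurable hf fun q => le_of_forall_pos_le_add fun ε hε => ?_
  set s := h - ε / (q + 1) with hs
  have hs1 : s < h := by
    have : 0 < ε / (q + 1) := by positivity
    linarith
  have h1 : ∀ᵐ x ∂(ν : Measure X), ∀ᶠ y in 𝓝 x, name T f q y = name T f q x := by
    have h2 : ∀ᵐ x ∂(ν : Measure X), ∀ i : Fin q, ∀ᶠ y in 𝓝 (T^[i] x), f y = f (T^[i] x) :=
      ae_all_iff.2 fun i => (hν.iterate i).quasiMeasurePreserving.ae hc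
    filter_upwards [h2] with x hx
    filter_upwards [eventually_all.2 fun i : Fin q => ((hT.iterate i).tendsto x).eventually (hx i)]
      with y hy
    exact funext hy
  have h2 : Tendsto (fun i => q * s - q * (q * Real.log (Fintype.card (Fin k → Bool))) / N i) L
      (𝓝 (q * s - 0)) :=
    tendsto_const_nhds.sub ((tendsto_const_div_atTop_nhds_zero_nat _).comp hN)
  have h3 : q * s - 0 ≤ shannon (ν : Measure X) (name T f q) := by
    refine le_of_tendsto_of_tendsto h2 (tendsto_shannon hlim h1) ?_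
    filter_upwards [hμ, H s hs1, hN.eventually (eventually_gt_atTop 0)] with i ⟨h4, h5⟩ h6 h7
    rw [h5]
    refine le_shannon_avg_name hT.measurable h7 hf (fun a => h6 _ (hf.name hT.measurable _ a) ?_) q
    intro x hx y hy j hj
    exact hd _ _ ((congrFun hx ⟨j, hj⟩).trans (congrFun hy ⟨j, hj⟩).symm)
  have h4 : (q : ℝ) * (ε / (q + 1)) ≤ ε := by
    rw [← mul_div_assoc, div_le_iff₀ (by positivity)]
    nlinarith
  rw [hs, mul_sub] at h3
  linarith

/-- A continuous flow. -/
structure IsFl {X : Type} [TopologicalSpace X] (φ : ℝ → X → X) : Prop where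
  cont : Continuous fun q : ℝ × X => φ q.1 q.2
  zero : ∀ x, φ 0 x = x
  add : ∀ s t x, φ (s + t) x = φ s (φ t x)

section flow

variable {Y : Type} [TopologicalSpace Y] {ψ : ℝ → Y → Y}

theorem IsFl.right (h : IsFl ψ) (t : ℝ) : Continuous (ψ t) :=
  h.cont.comp (Continuous.prodMk continuous_const continuous_id)

theorem IsFl.left (h : IsFl ψ) (x : Y) : Continuous fun t => ψ t x :=
  h.cont.comp (Continuous.prodMk continuous_id continuous_const)

theorem IsFl.iter (h : IsFl ψ) (s : ℝ) (i : ℕ) (x : Y) : (ψ s)^[i] x = ψ (i * s) x := by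
  induction i with
  | zero => simp [h.zero]
  | succ i ih =>
    rw [Function.iterate_succ_apply', ih, ← h.add]
    congr 1
    push_cast
    ring

theorem IsFl.scale (h : IsFl ψ) (c : ℝ) : IsFl fun t => ψ (c * t) :=
  ⟨h.cont.comp (Continuous.prodMk (continuous_const.mul continuous_fst) continuous_snd),
    fun x => by simp [h.zero], fun s t x => by rw [mul_add, h.add]⟩

end flow

variable {φ : ℝ → X → X} {J : Type}

/-- The mean of the orbit segments of length one of finitely many points. -/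
def emp (φ : ℝ → X → X) (I : Finset J) (p : J → X) : Measure X :=
  (I.card : ℝ≥0∞)⁻¹ • ∑ i ∈ I, (volume.restrict (Ioc (0 : ℝ) 1)).map fun s => φ s (p i)

omit [CompactSpace X] in
theorem emp_prob (h : IsFl φ) {I : Finset J} (hI : I.Nonempty) (p : J → X) :
    IsProbabilityMeasure (emp φ I p) := by
  refine ⟨?_⟩
  rw [emp, Measure.smul_apply, Measure.finsetSum_apply, smul_eq_mul]
  have : ∀ i ∈ I, (volume.restrict (Ioc (0 : ℝ) 1)).map (fun s => φ s (p i)) univ = 1 :=
    fun i _ => by
      rw [Measure.map_apply (h.left _).measurable MeasurableSet.univ]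
      simp
  rw [Finset.sum_congr rfl this, Finset.sum_const, nsmul_eq_mul, mul_one]
  exact ENNReal.inv_mul_cancel (by simpa using hI.ne_empty) (by simp)

open Classical in
omit [CompactSpace X] in
theorem emp_le (h : IsFl φ) (I : Finset J) (p : J → X) {S : Set X} (hS : MeasurableSet S) {m : ℕ}
    (H : ∀ s ∈ Ioc (0 : ℝ) 1, (I.filter fun i => φ s (p i) ∈ S).card ≤ m) :
    (emp φ I p).real S ≤ m / I.card := by
  have h1 : ∑ i ∈ I, (volume.restrict (Ioc (0 : ℝ) 1)).map (fun s => φ s (p i)) S ≤ m := by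
    have e : ∀ i ∈ I, (volume.restrict (Ioc (0 : ℝ) 1)).map (fun s => φ s (p i)) S =
        ∫⁻ s in Ioc (0 : ℝ) 1, ((fun s => φ s (p i)) ⁻¹' S).indicator 1 s := fun i _ => by
      rw [Measure.map_apply (h.left _).measurable hS,
        lintegral_indicator_one ((h.left _).measurable hS)]
    rw [Finset.sum_congr rfl e, ← lintegral_finsetSum _ fun i _ =>
      measurable_one.indicator ((h.left _).measurable hS)]
    refine le_trans (setLIntegral_mono' measurableSet_Ioc (g := fun _ => (m : ℝ≥0∞))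
      fun s hs => ?_) (by simp)
    simp only [indicator, mem_preimage, Pi.one_apply, Finset.sum_boole]
    exact_mod_cast H s hs
  rw [emp, measureReal_def, Measure.smul_apply, Measure.finsetSum_apply, smul_eq_mul,
    ENNReal.toReal_mul, mul_comm, div_eq_mul_inv]
  refine mul_le_mul (ENNReal.toReal_le_of_le_ofReal (Nat.cast_nonneg _) (by simpa using h1))
    (by simp) ENNReal.toReal_nonneg (Nat.cast_nonneg _)

theorem integrable_cont {g : X → ℝ} (hg : Continuous g) (ρ : Measure X) [IsFiniteMeasure ρ] :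
    Integrable g ρ := hg.integrable_of_hasCompactSupport (HasCompactSupport.of_compactSpace _)

theorem integral_emp (h : IsFl φ) (I : Finset J) (p : J → X) {g : X → ℝ} (hg : Continuous g) :
    ∫ x, g x ∂emp φ I p = (I.card : ℝ)⁻¹ * ∑ i ∈ I, ∫ s in (0 : ℝ)..1, g (φ s (p i)) := by
  rw [emp, integral_smul_measure, integral_finsetSum_measure fun i _ => integrable_cont hg _]
  simp only [ENNReal.toReal_inv, ENNReal.toReal_natCast, smul_eq_mul]
  congr 1
  refine Finset.sum_congr rfl fun i _ => ?_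
  rw [integral_map (h.left _).measurable.aemeasurable hg.aestronglyMeasurable,
    intervalIntegral.integral_of_le zero_le_one]

theorem integral_avg_emp (h : IsFl φ) {I : Finset J} (hI : I.Nonempty) (p : J → X) (N : ℕ)
    {g : X → ℝ} (hg : Continuous g) : ∫ x, g x ∂avg (φ 1) N (emp φ I p) =
      (I.card : ℝ)⁻¹ * ∑ i ∈ I, (N : ℝ)⁻¹ * ∫ s in (0 : ℝ)..N, g (φ s (p i)) := by
  have := emp_prob h hI p
  rw [avg, integral_smul_measure, integral_finsetSum_measure fun i _ => integrable_cont hg _]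
  have e : ∀ l ∈ Finset.range N, ∫ x, g x ∂(emp φ I p).map (φ 1)^[l] =
      (I.card : ℝ)⁻¹ * ∑ i ∈ I, ∫ s in ((l : ℕ) : ℝ)..((l + 1 : ℕ) : ℝ), g (φ s (p i)) := by
    intro l _
    rw [integral_map ((h.right 1).iterate l).measurable.aemeasurable hg.aestronglyMeasurable,
      integral_emp h I p (g := fun x => g ((φ 1)^[l] x)) (hg.comp ((h.right 1).iterate l))]
    congr 1
    refine Finset.sum_congr rfl fun i _ => ?_
    have e1 := intervalIntegral.integral_comp_add_left (a := 0) (b := 1)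
      (fun s => g (φ s (p i))) (l : ℝ)
    rw [add_zero] at e1
    rw [Nat.cast_succ, ← e1]
    simp only [h.iter, mul_one, h.add]
  rw [Finset.sum_congr rfl e, ← Finset.mul_sum, Finset.sum_comm, ← Finset.mul_sum]
  simp only [ENNReal.toReal_inv, ENNReal.toReal_natCast, smul_eq_mul]
  rw [mul_left_comm]
  congr 2
  refine Finset.sum_congr rfl fun i _ => ?_
  have e2 := intervalIntegral.sum_integral_adjacent_intervals (μ := volume)
    (f := fun s => g (φ s (p i))) (a := fun l : ℕ => (l : ℝ)) (n := N)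
    fun k _ => (hg.comp (h.left _)).intervalIntegrable _ _
  rw [Nat.cast_zero] at e2
  exact e2

omit [CompactSpace X] [MeasurableSpace X] [BorelSpace X] in
theorem shift_le (h : IsFl φ) (g : X →ᵇ ℝ) (x : X) (R t : ℝ) :
    |(∫ s in (0 : ℝ)..R, g (φ t (φ s x))) - ∫ s in (0 : ℝ)..R, g (φ s x)| ≤ 2 * ‖g‖ * |t| := by
  have hc : Continuous fun s => g (φ s x) := g.continuous.comp (h.left x)
  have e1 := intervalIntegral.integral_comp_add_left (a := 0) (b := R) (fun s => g (φ s x)) t
  simp only [h.add] at e1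
  rw [e1, intervalIntegral.integral_interval_sub_interval_comm (hc.intervalIntegrable _ _)
    (hc.intervalIntegrable _ _) (hc.intervalIntegrable _ _)]
  have k : ∀ a b : ℝ, |∫ s in a..b, g (φ s x)| ≤ ‖g‖ * |b - a| := fun a b =>
    intervalIntegral.norm_integral_le_of_norm_le_const (f := fun s => g (φ s x))
      fun s _ => g.norm_coe_le_norm _
  have h1 := k (t + 0) 0
  have h2 := k (t + R) R
  rw [show (0 : ℝ) - (t + 0) = -t by ring, abs_neg] at h1
  rw [show R - (t + R) = -t by ring, abs_neg] at h2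
  refine (abs_sub _ _).trans ?_
  linarith

/-- Limits of long orbit segments are invariant. -/
theorem inv_of_limit (h : IsFl φ) {ι : Type} {L : Filter ι} [L.NeBot] {I : ι → Finset J}
    {p : ι → J → X} {N : ι → ℕ} (hN : Tendsto N L atTop) {μs : ι → ProbabilityMeasure X}
    (hμ : ∀ᶠ i in L, (I i).Nonempty ∧ (μs i : Measure X) = avg (φ 1) (N i) (emp φ (I i) (p i)))
    {ν : ProbabilityMeasure X} (hlim : Tendsto μs L (𝓝 ν)) (t : ℝ) :
    MeasurePreserving (φ t) (ν : Measure X) ν := by
  refine ⟨(h.right t).measurable, ext_of_forall_integral_eq_of_IsFiniteMeasure fun g => ?_⟩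
  rw [integral_map (h.right t).measurable.aemeasurable g.continuous.aestronglyMeasurable]
  have h1 := ProbabilityMeasure.tendsto_iff_forall_integral_tendsto.1 hlim
  have h2 := (h1 (g.compContinuous ⟨φ t, h.right t⟩)).sub (h1 g)
  have h3 : Tendsto (fun i => 2 * ‖g‖ * |t| / N i) L (𝓝 0) :=
    (tendsto_const_div_atTop_nhds_zero_nat _).comp hN
  refine sub_eq_zero.1 (abs_eq_zero.1 (le_antisymm (le_of_tendsto_of_tendsto h2.abs h3 ?_)
    (abs_nonneg _)))
  filter_upwards [hμ] with i ⟨h4, h5⟩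
  have hc : (0 : ℝ) < (I i).card := by exact_mod_cast h4.card_pos
  rw [h5, integral_avg_emp h h4 _ _ (g.compContinuous ⟨φ t, h.right t⟩).continuous,
    integral_avg_emp h h4 _ _ g.continuous, ← mul_sub, ← Finset.sum_sub_distrib, abs_mul,
    abs_of_pos (inv_pos.2 hc), inv_mul_le_iff₀ hc]
  refine (Finset.abs_sum_le_sum_abs _ _).trans ((Finset.sum_le_card_nsmul _ _ _
    fun j _ => ?_).trans (le_of_eq (nsmul_eq_mul _ _)))
  rw [← mul_sub, abs_mul, abs_of_nonneg (by positivity), inv_mul_eq_div]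
  exact div_le_div_of_nonneg_right (shift_le h g _ _ t) (Nat.cast_nonneg _)

omit [MeasurableSpace X] [BorelSpace X] in
theorem exists_back (h : IsFl φ) {ε : ℝ} (hε : 0 < ε) : ∃ δ > 0, ∀ s ∈ Icc (0 : ℝ) 1, ∀ x y,
    dist (φ s x) (φ s y) < δ → dist x y < ε := by
  have h1 : UniformContinuousOn (fun q : ℝ × X => φ q.1 q.2) (Icc (-1 : ℝ) 0 ×ˢ univ) :=
    (isCompact_Icc.prod isCompact_univ).uniformContinuousOn_of_continuous h.cont.continuousOn
  obtain ⟨δ, hδ, h2⟩ := Metric.uniformContinuousOn_iff.1 h1 ε hε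
  refine ⟨δ, hδ, fun s hs x y hxy => ?_⟩
  have h3 : -s ∈ Icc (-1 : ℝ) 0 := ⟨by linarith [hs.2], by linarith [hs.1]⟩
  have := h2 (-s, φ s x) ⟨h3, mem_univ _⟩ (-s, φ s y) ⟨h3, mem_univ _⟩
    (by rw [Prod.dist_eq, dist_self]; exact max_lt hδ hxy)
  simpa only [← h.add, neg_add_cancel, h.zero] using this

open Classical in
/-- **Limits of orbit segments of almost separated families.** -/
theorem le_ks_of_segments (h : IsFl φ) {ι : Type} {L : Filter ι} [L.NeBot] {I : ι → Finset J}
    {p : ι → J → X} {N : ι → ℕ} (hN : Tendsto N L atTop) {μs : ι → ProbabilityMeasure X}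
    (hμ : ∀ᶠ i in L, (I i).Nonempty ∧ (μs i : Measure X) = avg (φ 1) (N i) (emp φ (I i) (p i)))
    {ν : ProbabilityMeasure X} (hlim : Tendsto μs L (𝓝 ν)) {ε : ℝ} (hε : 0 < ε) {m : ι → ℕ}
    (hm : ∀ i S, Small (φ 1) (N i) ε S → ((I i).filter fun j => p i j ∈ S).card ≤ m i) {c : ℝ}
    (H : ∀ s < c, ∀ᶠ i in L, m i * Real.exp (s * N i) ≤ (I i).card) :
    ENNReal.ofReal c ≤ ksEntropy (ν : Measure X) (φ 1) := by
  obtain ⟨δ, hδ, hb⟩ := exists_back h hε
  refine le_ks_of_limit (h.right 1) hN (hμ.mono fun i hi => ⟨emp_prob h hi.1 _, hi.2⟩) hlim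
    (inv_of_limit h hN hμ hlim 1) hδ fun s hs => ?_
  filter_upwards [hμ, H s hs] with i ⟨h4, _⟩ h5 S hS hsm
  have hc : (0 : ℝ) < (I i).card := by exact_mod_cast h4.card_pos
  refine (emp_le h _ _ hS (m := m i) fun u hu => hm i (φ u ⁻¹' S) ?_).trans ?_
  · intro x hx y hy j hj
    refine hb u (Ioc_subset_Icc_self hu) _ _ ?_
    have := hsm _ hx _ hy j hj
    simp only [h.iter, ← h.add] at this ⊢
    rwa [add_comm u]
  · rw [div_le_iff₀ hc, Real.exp_neg, le_inv_mul_iff₀ (Real.exp_pos _), mul_comm]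
    exact h5

end Vale.Agent.N207
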