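import Vale.Agent.N207.Misi
import Vale.Agent.P207.BlkE1
import Vale.Agent.P207.BlkE2

/-!
# P207: the variational principle for flows and the formula of Abramov
-/

open MeasureTheory Set Filter Topology
open scoped ENNReal symmDiff

noncomputable section

namespace Vale.Agent.N207

open Vale.Agent.P109.KS
open Vale.Agent.P207 (Sep topEntropy le_topEntropy_of_sep topEntropy_le_of_span)

variable {X : Type} [MetricSpace X] [CompactSpace X] [MeasurableSpace X] [BorelSpace X]
  {φ : ℝ → X → X}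

theorem exists_inv_of_sep (h : IsFl φ) {ε : ℝ} (hε : 0 < ε) {c : ℝ}
    (H : ∀ s < c, ∃ᶠ N : ℕ in atTop, ∃ E : Finset X, Sep (φ 1) N ε E ∧
      Real.exp (s * N) ≤ E.card) :
    ∃ ν : Measure X, IsProbabilityMeasure ν ∧ (∀ t, MeasurePreserving (φ t) ν ν) ∧
      ENNReal.ofReal c ≤ ksEntropy ν (φ 1) := by
  classical
  obtain ⟨N, hN, hE⟩ := extraction_forall_of_frequently
    (P := fun n k => (∃ E : Finset X, Sep (φ 1) k ε E ∧
      Real.exp ((c - 1 / (n + 1)) * k) ≤ E.card) ∧ 0 < k) fun n =>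
    (H _ (by
      have : (0 : ℝ) < 1 / (n + 1) := by positivity
      linarith)).and_eventually (eventually_gt_atTop 0)
  choose E hE1 hE2 using fun n => (hE n).1
  have hne : ∀ n, (E n).Nonempty := fun n => Finset.card_pos.1 (by
    exact_mod_cast (Real.exp_pos _).trans_le (hE2 n))
  set μs : ℕ → ProbabilityMeasure X := fun n => ⟨avg (φ 1) (N n) (emp φ (E n) id), by
    have := emp_prob h (hne n) id
    exact avg_prob (h.right 1).measurable (hE n).2⟩ with hμs
  set U : Ultrafilter ℕ := Ultrafilter.of atTop with hU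
  have hUle : (U : Filter ℕ) ≤ atTop := Ultrafilter.of_le _
  obtain ⟨ν, -, hν⟩ := isCompact_univ.ultrafilter_le_nhds (U.map μs) (by simp)
  have hlim : Tendsto μs U (𝓝 ν) := hν
  have hNU : Tendsto N U atTop := hN.tendsto_atTop.mono_left hUle
  have hμ : ∀ᶠ n in (U : Filter ℕ), (E n).Nonempty ∧
      (μs n : Measure X) = avg (φ 1) (N n) (emp φ (E n) id) :=
    Eventually.of_forall fun n => ⟨hne n, rfl⟩
  refine ⟨ν, inferInstance, inv_of_limit h (p := fun _ => id) hNU hμ hlim,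
    le_ks_of_segments h (p := fun _ => id) hNU hμ hlim hε (m := fun _ => 1)
      (fun n S hS => ?_) fun s hs => ?_⟩
  · refine Finset.card_le_one.2 fun x hx y hy => ?_
    rw [Finset.mem_filter] at hx hy
    by_contra hxy
    obtain ⟨i, hi, hd⟩ := hE1 n x hx.1 y hy.1 hxy
    exact absurd (hS x hx.2 y hy.2 i hi) (not_lt.2 hd)
  · have h1 : ∀ᶠ n : ℕ in atTop, 1 / ((n : ℝ) + 1) < c - s :=
      tendsto_one_div_add_atTop_nhds_zero_nat.eventually (gt_mem_nhds (by linarith))
    filter_upwards [hUle h1] with n hn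
    rw [Nat.cast_one, one_mul]
    refine le_trans (Real.exp_le_exp.2 ?_) (hE2 n)
    have : 1 / ((n : ℝ) + 1) < c - s := hn
    exact mul_le_mul_of_nonneg_right (by linarith) (Nat.cast_nonneg _)

omit [MeasurableSpace X] [BorelSpace X] in
theorem ev_sep_lt {T : X → X} (hT : Continuous T) {s : ℝ} (hs : 0 ≤ s)
    (hlt : topEntropy T < ENNReal.ofReal s) {ε : ℝ} (hε : 0 < ε) :
    ∀ᶠ N : ℕ in atTop, ∀ E : Finset X, Sep T N ε E → (E.card : ℝ) < Real.exp (s * N) := by
  by_contra hcon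
  rw [Filter.not_eventually] at hcon
  have h1 := le_topEntropy_of_sep hT hε hs one_pos (hcon.mono (by
    intro N hN
    push Not at hN
    obtain ⟨E, hE, hE2⟩ := hN
    exact ⟨E, hE, by rw [one_mul]; exact hE2⟩))
  exact absurd h1 (not_le.2 hlt)

/-- The easy half of the variational principle. -/
theorem ks_le_top {T : X → X} (hT : Continuous T) {ν : Measure X} [IsProbabilityMeasure ν]
    (hν : MeasurePreserving T ν ν) : ksEntropy ν T ≤ topEntropy T := by
  refine le_of_forall_gt_imp_ge_of_dense fun b hb => ?_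
  rcases eq_or_ne b ⊤ with rfl | hb'
  · exact le_top
  obtain ⟨s, hs, rfl⟩ : ∃ s : ℝ, 0 ≤ s ∧ b = ENNReal.ofReal s :=
    ⟨b.toReal, ENNReal.toReal_nonneg, (ENNReal.ofReal_toReal hb').symm⟩
  have h1 := P207.H891.ksEntropy_le hT hν (F := fun _ => s) continuous_const fun ε hε κ hκ => ?_
  · simpa using h1
  obtain ⟨N₀, hN₀⟩ := eventually_atTop.1 (ev_sep_lt hT hs hb hε)
  refine ⟨Real.exp (s * N₀), fun n E hE => ?_⟩
  have k : ∀ {m}, P207.H891.SepSet T m ε E → Sep T m ε E := fun h x hx y hy hxy =>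
    (h x hx y hy hxy).imp fun i hi => ⟨hi.1, hi.2.le⟩
  have h2 : (E.card : ℝ) ≤ Real.exp (s * N₀) * Real.exp (s * n) := by
    rw [← Real.exp_add, ← mul_add, ← Nat.cast_add]
    exact (hN₀ _ (by omega) E (k (hE.mono (by omega)))).le
  have h3 : ∀ x, Real.exp (-birkhoffSum T (fun _ => s) n x) = (Real.exp (s * n))⁻¹ := by
    intro x
    rw [Real.exp_neg]
    simp [birkhoffSum, mul_comm]
  simp only [h3, Finset.sum_const, nsmul_eq_mul]
  rw [← div_eq_mul_inv, div_le_iff₀ (Real.exp_pos _)]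
  refine h2.trans (mul_le_mul_of_nonneg_right ?_ (Real.exp_pos _).le)
  exact le_mul_of_one_le_right (Real.exp_pos _).le (Real.one_le_exp (by positivity))

omit [MeasurableSpace X] [BorelSpace X] in
theorem top_le_of_sep {T : X → X} (hT : Continuous T) {s : ℝ}
    (H : ∀ ε > 0, ∀ᶠ N : ℕ in atTop, ∀ E : Finset X, Sep T N ε E →
      (E.card : ℝ) < Real.exp (s * N)) : topEntropy T ≤ ENNReal.ofReal s := by
  classical
  refine topEntropy_le_of_span hT fun ε hε => ?_
  obtain ⟨N₀, hN₀⟩ := eventually_atTop.1 (H ε hε)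
  refine ⟨Real.exp (s * N₀), fun N => ?_⟩
  have h2 : ∀ E : Finset X, Sep T N ε E → (E.card : ℝ) ≤ Real.exp (s * N₀) * Real.exp (s * N) := by
    intro E hE
    rw [← Real.exp_add, ← mul_add, ← Nat.cast_add]
    exact (hN₀ _ (by omega) E fun x hx y hy hxy =>
      (hE x hx y hy hxy).imp fun i hi => ⟨by omega, hi.2⟩).le
  have hb : BddAbove {k | ∃ E : Finset X, Sep T N ε E ∧ E.card = k} := by
    refine ⟨⌈Real.exp (s * N₀) * Real.exp (s * N)⌉₊, ?_⟩
    rintro _ ⟨E, hE, rfl⟩
    exact_mod_cast (h2 E hE).trans (Nat.le_ceil _)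
  obtain ⟨E, hE, hc⟩ := Nat.sSup_mem (s := {k | ∃ E : Finset X, Sep T N ε E ∧ E.card = k})
    ⟨0, ∅, fun x hx => absurd hx (Finset.notMem_empty x), rfl⟩ hb
  refine ⟨E, h2 E hE, fun x => ?_⟩
  by_contra hx
  push Not at hx
  have h3 : x ∉ E := fun h => by
    obtain ⟨i, -, hi⟩ := hx x h
    rw [dist_self] at hi
    linarith
  have h4 : Sep T N ε (insert x E) := by
    intro y hy z hz hyz
    rcases Finset.mem_insert.1 hy with rfl | hy' <;> rcases Finset.mem_insert.1 hz with rfl | hz'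
    · exact absurd rfl hyz
    · exact hx z hz'
    · exact (hx y hy').imp fun i hi => ⟨hi.1, by rw [dist_comm]; exact hi.2⟩
    · exact hE y hy' z hz' hyz
  have h5 := le_csSup hb ⟨_, h4, rfl⟩
  rw [Finset.card_insert_of_notMem h3, ← hc] at h5
  omega

/-- The hard half of the variational principle, for flows. -/
theorem exists_inv_of_lt (h : IsFl φ) {b : ℝ≥0∞} (hb : b < topEntropy (φ 1)) :
    ∃ ν : Measure X, IsProbabilityMeasure ν ∧ (∀ t, MeasurePreserving (φ t) ν ν) ∧
      b ≤ ksEntropy ν (φ 1) := by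
  obtain ⟨s, hs, rfl⟩ : ∃ s : ℝ, 0 ≤ s ∧ b = ENNReal.ofReal s :=
    ⟨b.toReal, ENNReal.toReal_nonneg, (ENNReal.ofReal_toReal hb.ne_top).symm⟩
  have h1 := mt (top_le_of_sep (s := s) (h.right 1)) (not_le.2 hb)
  push Not at h1
  obtain ⟨ε, hε, h2⟩ := h1
  refine exists_inv_of_sep h hε fun s' hs' => h2.mono fun N ⟨E, hE, h3⟩ => ⟨E, hE, ?_⟩
  exact le_trans (Real.exp_le_exp.2 (mul_le_mul_of_nonneg_right hs'.le (Nat.cast_nonneg _))) h3

/-! ### the formula of Abramov -/

theorem le_mul_of_forall {K L : ℝ≥0∞} {a : ℝ} (ha : 0 < a)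
    (H : ∀ c : ℝ, 0 < c → K < ENNReal.ofReal c → L ≤ ENNReal.ofReal (a * c)) :
    L ≤ ENNReal.ofReal a * K := by
  have ha' : ENNReal.ofReal a ≠ 0 := by simpa using ha
  rw [← ENNReal.inv_mul_le_iff ha' ENNReal.ofReal_ne_top]
  refine le_of_forall_gt_imp_ge_of_dense fun b hb => ?_
  rcases eq_or_ne b ⊤ with rfl | hb'
  · exact le_top
  rw [ENNReal.inv_mul_le_iff ha' ENNReal.ofReal_ne_top, ← ENNReal.ofReal_toReal hb',
    ← ENNReal.ofReal_mul ha.le]
  exact H _ (ENNReal.toReal_pos (ne_bot_of_gt hb) hb') (by rwa [ENNReal.ofReal_toReal hb'])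

variable {ν : Measure X} [IsProbabilityMeasure ν] {A : Type} [Fintype A]

theorem ev_ne_le (h : IsFl φ) (hν : ∀ t, MeasurePreserving (φ t) ν ν) {f : X → A} (hf : MF f)
    {δ : ℝ} (hδ : 0 < δ) : ∀ᶠ u in 𝓝 (0 : ℝ), ν.real {x | f (φ u x) ≠ f x} ≤ δ := by
  set Φ : C(ℝ, C(X, X)) := (⟨fun q : ℝ × X => φ q.1 q.2, h.cont⟩ : C(ℝ × X, X)).curry with hΦ
  have h1 : ∀ a, Tendsto (fun u => ν.real ((φ u ⁻¹' (f ⁻¹' {a})) ∆ (φ 0 ⁻¹' (f ⁻¹' {a})))) (𝓝 0)
      (𝓝 0) := fun a =>
    (ENNReal.tendsto_toReal (a := 0) (by simp)).comp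
      (tendsto_measure_symmDiff_preimage_nhds_zero (f := fun u => Φ u) (g := Φ 0)
        (Φ.continuous.tendsto 0) (Eventually.of_forall hν) (hν 0) (hf a).nullMeasurableSet
        (by finiteness))
  have h2 := tendsto_finsetSum Finset.univ fun a _ => h1 a
  rw [Finset.sum_const_zero] at h2
  filter_upwards [h2.eventually (gt_mem_nhds hδ)] with u hu
  refine le_trans (measureReal_mono ?_) ((measureReal_iUnion_fintype_le _).trans hu.le)
  intro x hx
  refine mem_iUnion.2 ⟨f x, Or.inr ⟨?_, hx⟩⟩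
  show f (φ 0 x) = f x
  rw [h.zero]

theorem times_le (h : IsFl φ) (hν : ∀ t, MeasurePreserving (φ t) ν ν) {f : X → A} (hf : MF f)
    {s η : ℝ} (hs : 0 < s) (hη : 0 < η) : ∃ m : ℕ, ∀ (n n' : ℕ) (τ : Fin n → ℝ),
      (∀ j, 0 ≤ τ j ∧ τ j < s * n') → shannon ν (fun x j => f (φ (τ j) x)) ≤
        shannon ν (name (φ s) (name (φ (s / m)) f m) n') + n * η := by
  classical
  obtain ⟨δ, hδ, hsm⟩ := exists_shannon_small A hη
  obtain ⟨r, hr, hr'⟩ := Metric.eventually_nhds_iff.1 (ev_ne_le h hν hf hδ)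
  obtain ⟨m, hm⟩ := exists_nat_gt (s / r)
  have hm0 : (0 : ℝ) < m := lt_trans (by positivity) hm
  have hm1 : 0 < m := by exact_mod_cast hm0
  have hw : 0 < s / m := by positivity
  have hwr : s / m < r := by
    rw [div_lt_iff₀ hm0]
    rw [div_lt_iff₀ hr] at hm
    linarith
  refine ⟨m, fun n n' τ hτ => ?_⟩
  set k : Fin n → ℕ := fun j => ⌊τ j / (s / m)⌋₊ with hk
  have hk1 : ∀ j, k j * (s / m) ≤ τ j := fun j =>
    (le_div_iff₀ hw).1 (Nat.floor_le (div_nonneg (hτ j).1 hw.le))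
  have hk2 : ∀ j, τ j < (k j + 1) * (s / m) := fun j => (div_lt_iff₀ hw).1 (Nat.lt_floor_add_one _)
  have hk3 : ∀ j, k j / m < n' := by
    intro j
    refine Nat.div_lt_of_lt_mul ?_
    have h1 : (k j : ℝ) * (s / m) < (m * n') * (s / m) := by
      refine (hk1 j).trans_lt ((hτ j).2.trans_le (le_of_eq ?_))
      field_simp
    exact_mod_cast lt_of_mul_lt_mul_right h1 hw.le
  set e : Fin n → X → Option A := fun j x =>
    if f (φ (τ j) x) = f (φ (k j * (s / m)) x) then none else some (f (φ (τ j) x)) with he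
  have hme : ∀ j, MF (e j) := fun j =>
    ((hf.comp (hν (τ j)).measurable).prod (hf.comp (hν (k j * (s / m))).measurable)).map
      fun q : A × A => if q.1 = q.2 then none else some q.1
  refine le_trans (shannon_le_add ((hf.name (hν (s / m)).measurable m).name (hν s).measurable n')
    (MF.pi hme) (fun q j => (q.2 j).getD (q.1 ⟨k j / m, hk3 j⟩ ⟨k j % m, Nat.mod_lt _ hm1⟩))
    fun x => ?_) (add_le_add le_rfl ((shannon_pi_le hme).trans ?_))
  · funext j
    have e1 : ((k j % m : ℕ) : ℝ) * (s / m) + ((k j / m : ℕ) : ℝ) * s = k j * (s / m) := by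
      have e2 : ((k j % m : ℕ) : ℝ) + m * ((k j / m : ℕ) : ℝ) = k j := by
        exact_mod_cast Nat.mod_add_div (k j) m
      rw [← e2]
      field_simp
    simp only [he, name, h.iter, ← h.add, e1]
    split_ifs with h1
    · exact h1
    · rfl
  · refine (Finset.sum_le_card_nsmul _ _ η fun j _ => hsm X ν _ (hme j) ?_).trans (by simp)
    have e1 : {x | e j x ≠ none} =
        φ (k j * (s / m)) ⁻¹' {y | f (φ (τ j - k j * (s / m)) y) ≠ f y} := by
      ext x
      simp only [he, mem_ofPred_eq, mem_preimage, ← h.add, sub_add_cancel]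
      split_ifs with h1 <;> simp [h1]
    have e2 : MeasurableSet {y | f (φ (τ j - k j * (s / m)) y) ≠ f y} := by
      have := ((hf.comp (hν (τ j - k j * (s / m))).measurable).prod hf).map
        (fun q : A × A => decide (q.1 = q.2)) false
      convert this using 1
      ext y
      simp
    rw [e1, measureReal_def, (hν _).measure_preimage e2.nullMeasurableSet]
    refine hr' ?_
    rw [Real.dist_eq, sub_zero, abs_of_nonneg (by linarith [hk1 j])]
    linarith [hk2 j]

theorem ks_scale_le (h : IsFl φ) (hν : ∀ t, MeasurePreserving (φ t) ν ν) {s t : ℝ} (hs : 0 < s)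
    (ht : t ≠ 0) : ksEntropy ν (φ t) ≤ ENNReal.ofReal (|t| / s) * ksEntropy ν (φ s) := by
  have ht' : 0 < |t| := abs_pos.2 ht
  refine le_mul_of_forall (by positivity) fun c hc hlt => ks_le fun k f hf ε hε => ?_
  obtain ⟨m, hm⟩ := times_le h hν hf hs (half_pos hε)
  obtain ⟨N₀, hN₀⟩ := eventually_atTop.1
    (ev_of_ks_lt (hν s).measurable (hf.name (hν (s / m)).measurable m) hlt)
  have h1 : ∀ᶠ n : ℕ in atTop, c * (N₀ + 1) / n < ε / 2 :=
    (tendsto_const_div_atTop_nhds_zero_nat _).eventually (gt_mem_nhds (half_pos hε))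
  filter_upwards [h1, eventually_gt_atTop 0] with n h2 hn
  have hn' : (0 : ℝ) < n := by exact_mod_cast hn
  set n' : ℕ := ⌊n * |t| / s⌋₊ + 1 + N₀ with hn'def
  have h3 : n * |t| < s * n' := by
    have h4 := Nat.lt_floor_add_one (n * |t| / s)
    rw [div_lt_iff₀ hs] at h4
    rw [hn'def]
    push_cast
    nlinarith [Nat.cast_nonneg (α := ℝ) N₀]
  have h4 : (n' : ℝ) ≤ n * |t| / s + (N₀ + 1) := by
    have h5 := Nat.floor_le (show 0 ≤ n * |t| / s by positivity)
    rw [hn'def]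
    push_cast
    linarith
  have h5 := hm n n' (fun j => j * t + n * max (-t) 0) fun j => by
    have hj : (j : ℝ) < n := by exact_mod_cast j.2
    have hj0 : (0 : ℝ) ≤ j := Nat.cast_nonneg _
    rcases le_total 0 t with h6 | h6
    · rw [max_eq_right (by linarith), abs_of_nonneg h6] at *
      constructor <;> nlinarith
    · rw [max_eq_left (by linarith), abs_of_nonpos h6] at *
      constructor <;> nlinarith
  have h6 : shannon ν (name (φ t) f n) =
      shannon ν fun x (j : Fin n) => f (φ (j * t + n * max (-t) 0) x) := by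
    rw [← shannon_mp (hf.name (hν t).measurable n) (hν (n * max (-t) 0))]
    congr 1
    funext x j
    simp only [name, h.iter, h.add]
  have h7 := hN₀ n' (by omega)
  have h8 := mul_le_mul_of_nonneg_left h4 hc.le
  rw [div_lt_iff₀ hn'] at h2
  have h9 : c * (n * |t| / s) = |t| / s * c * n := by ring
  rw [h6]
  nlinarith

/-- **Abramov.** -/
theorem ks_scale (h : IsFl φ) (hν : ∀ t, MeasurePreserving (φ t) ν ν) {t : ℝ} (ht : t ≠ 0) :
    ksEntropy ν (φ t) = ENNReal.ofReal |t| * ksEntropy ν (φ 1) := by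
  have ht' : 0 < |t| := abs_pos.2 ht
  refine le_antisymm (by simpa using ks_scale_le h hν one_pos ht) ?_
  have h1 := ks_scale_le (h.scale t) (fun u => hν _) one_pos (inv_ne_zero ht)
  simp only [mul_inv_cancel₀ ht, mul_one, div_one] at h1
  refine (mul_le_mul_right h1 _).trans (le_of_eq ?_)
  rw [← mul_assoc, ← ENNReal.ofReal_mul ht'.le, abs_inv, mul_inv_cancel₀ ht'.ne',
    ENNReal.ofReal_one, one_mul]

theorem top_scale_le (h : IsFl φ) {t : ℝ} (ht : t ≠ 0) :
    topEntropy (φ t) ≤ ENNReal.ofReal |t| * topEntropy (φ 1) := by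
  refine le_of_forall_lt_imp_le_of_dense fun b hb => ?_
  obtain ⟨ν, _, h1, h2⟩ := exists_inv_of_lt (h.scale t) (by simpa using hb)
  have h3 : ∀ u, MeasurePreserving (φ u) ν ν := fun u => by
    simpa [mul_div_cancel₀ u ht] using h1 (u / t)
  simp only [mul_one] at h2
  rw [ks_scale h h3 ht] at h2
  exact h2.trans (mul_le_mul_right (ks_le_top (h.right 1) (h3 1)) _)

theorem top_scale (h : IsFl φ) {t : ℝ} (ht : t ≠ 0) :
    topEntropy (φ t) = ENNReal.ofReal |t| * topEntropy (φ 1) := by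
  have ht' : 0 < |t| := abs_pos.2 ht
  refine le_antisymm (top_scale_le h ht) ?_
  have h1 := top_scale_le (h.scale t) (inv_ne_zero ht)
  simp only [mul_inv_cancel₀ ht, mul_one] at h1
  refine (mul_le_mul_right h1 _).trans (le_of_eq ?_)
  rw [← mul_assoc, ← ENNReal.ofReal_mul ht'.le, abs_inv, mul_inv_cancel₀ ht'.ne',
    ENNReal.ofReal_one, one_mul]

end Vale.Agent.N207
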